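import Vale.Agent.P014U.Pp.Rn0
import Vale.Agent.P014U.Dr.Kol

/-! # P014U, block PATQ (odd prime), row GLK: the Kolyvagin classes of the perturbed tower and the reduction -/

set_option linter.all false

open NumberField Matrix Filter PowerSeries
open scoped Classical

noncomputable section

namespace Vale.Agent.P014U.Pp

variable [Pp]

open Vale.Agent.P022 (Qb GQ IsConj)
open Vale.Agent.P022E.GW (Ov Fb)
open Vale.Agent.P014U.X4F (La Rj cj mj)
open Vale.Agent.P014U.X4F.Pat (U Sy Im ul ul_spec ul_Im U_ge Im_anti two_Im)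
open Vale.Agent.P014U.X4S.Aq (cz cz_spec)
open Dr (Hm aa Ks Inj Cd Ug Hm_le)
open Kq (Rq)

namespace Gk

theorem cz_mod {n a : ℕ} {g : GQ} (e : ∀ z : Qb, z ^ pp ^ n = 1 → g z = z ^ a) :
    PadicInt.toZModPow n (cz g : ℤ_[pp]) = a := by
  have := NeZero.mk (pow_ne_zero n pp_ne)
  obtain ⟨ζ, χ, h1, -, -, h3⟩ := Dr.ex_cy (pp ^ n)
  have := h3 g _ (cz_spec g h1.pow_eq_one)
  rw [ZMod.natCast_zmod_val] at this
  exact this.symm.trans (h3 g a (e ζ h1.pow_eq_one))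

theorem dvd_of {n : ℕ} {x : ℤ_[pp]} (h : PadicInt.toZModPow n x = 0) : (pp : ℤ_[pp]) ^ n ∣ x := by
  rwa [← RingHom.mem_ker, PadicInt.ker_toZModPow, Ideal.mem_span_singleton] at h

theorem un_pow {k M : ℕ} (h : (pp - 1) * pp ^ k ∣ M) {x : ℤ_[pp]} (u : IsUnit x) :
    (pp : ℤ_[pp]) ^ k ∣ x ^ M - 1 := by
  obtain ⟨m, rfl⟩ := h
  have a : x ^ (pp - 1) - 1 ∈ Ideal.span {(pp : ℤ_[pp])} := by
    rw [← PadicInt.maximalIdeal_eq_span_p, ← PadicInt.ker_toZMod, RingHom.mem_ker, map_sub, map_pow,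
      ZMod.pow_card_sub_one_eq_one (u.map _).ne_zero, map_one, sub_self]
  have := Rg.pw_mem (Ideal.mem_span_singleton_self _) a k
  rw [Ideal.span_singleton_pow, Ideal.mem_span_singleton] at this
  rw [pow_mul, pow_mul]
  exact ((pow_dvd_pow _ k.le_succ).trans this).trans (sub_one_dvd_pow_sub_one _ m)

theorem cz_pow {k M : ℕ} (h : (pp - 1) * pp ^ k ∣ M) (g : GQ) :
    (pp : ℤ_[pp]) ^ k ∣ (cz g : ℤ_[pp]) ^ M - 1 := un_pow h (cz g).isUnit

theorem cj_one {k : ℕ} {x : ℤ_[pp]} (h : (pp : ℤ_[pp]) ^ k ∣ x - 1) : cj k x = 1 := by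
  rw [← sub_eq_zero, ← map_one (cj k), ← map_sub]
  exact Ideal.Quotient.eq_zero_iff_mem.2 (Rg.C_Im h)

theorem mj_ul {k : ℕ} {x y : ℕ → La} (h : ∀ j, mj k (x j) = mj k (y j)) : mj k (ul x) = mj k (ul y) := by
  rw [Ideal.Quotient.eq, ← map_sub]
  exact ul_Im.2 (.of_forall fun j => Ideal.Quotient.eq.1 (h j))

theorem ug (b : Bs) (N : ℕ) (l : ℕ) (P : Ideal (𝓞 Qb)) (o : Ov l P) (h : l ∉ b.S) : Ug (b.ρ N) l P :=
  have l2 : l ≠ pp := fun e => h (e ▸ b.two)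
  ⟨o, l2, fun i m => (congrArg (PadicInt.toZModPow N).mapMatrix (b.unr l P i o h m).1).trans (map_one _),
    fun φ f => ((PadicInt.toZModPow N).map_det _).symm.trans ((congrArg _ (b.det φ)).trans
      (cz_mod fun z hz => Dr.root_cong o (Dr.nd_two o l2 N) f hz))⟩

variable {b : Bs} {t : Tw b} (x : t.Es) {k : ℕ} (p : Pe t k)

theorem e_zero {j : ℕ} {g : GQ} (h : g ∈ Hm (x.M j)) : b.ε g = 1 ∧ t.e j g = 0 ∧ t.e' j g = 0 :=
  ⟨x.cd j g h, (t.tq j).ker g (Hm_le ((dvd_mul_right _ _).trans (x.dv j)) h),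
    (t.tq' j).ker g (Hm_le ((dvd_mul_left _ _).trans (x.dv j)) h)⟩

theorem cd0 (j : ℕ) : Cd (x.M j) (t.Ψ j) := fun g h => by
  rw [t.hΨ, (e_zero x h).1, (e_zero x h).2.1, map_one, ZMod.val_zero, pow_zero, mul_one]

theorem cd1 (j : ℕ) : Cd (x.M j * pp ^ t.N j) (p.Ψ j) := fun g h => by
  obtain ⟨a1, a2, a3⟩ := e_zero x (Hm_le (dvd_mul_right _ _) h)
  have a := cz_mod (a := 1) (g := g) fun z hz => by
    rw [pow_one]; exact Hm_le ((pow_dvd_pow pp (t.le j)).mul_left _) h z hz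
  have c : (pp : ℤ_[pp]) ^ (j + 1) ∣ (cz g : ℤ_[pp]) ^ p.M - 1 :=
    (dvd_of (by rw [map_sub, a, map_one, Nat.cast_one, sub_self])).trans (sub_one_dvd_pow_sub_one _ _)
  rw [p.hΨ, a1, a2, a3, ch, ZMod.val_zero, pow_zero, pow_zero, mul_one, mul_one, one_mul,
    ← sub_eq_zero, ← map_one (p.n.i j), ← map_sub, ← map_one (kq p.w), ← map_sub, p.n.ker]
  exact ⟨Rg.C_Im c, zero_mem _⟩

theorem nil (j : ℕ) (g : GQ) : IsNilpotent (p.Ψ j g - 1) := p.nil j g

/-- the reduction modulo the root, `pp ^ k` and `X ^ k` -/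
def Z : Rq (-p.w) (-p.w) →+* Rj k :=
  Rg.qz (mj k) (Ideal.Quotient.eq_zero_iff_mem.2 (Rg.C_Im (dvd_neg.2 p.wk')))

theorem Z_ch (y : ℤ_[pp]) (g : GQ) (n n' : ℕ) :
    Z p (ch p.w (y * (cz g : ℤ_[pp]) ^ p.M) n n') = cj k y * mj k (1 + X) ^ n := by
  rw [ch, map_mul, map_mul, map_pow, map_pow, map_add _ 1 QuadraticAlgebra.omega, map_one,
    show Z p QuadraticAlgebra.omega = 0 from (mj k).map_zero, add_zero, one_pow, mul_one,
    show Z p (kq _ _) = cj k _ from rfl, map_mul, cj_one (cz_pow p.Mk g), mul_one]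
  rfl

theorem hP : mj k (∏ y, p.P y).re = mj k t.E := by
  show Z p _ = _
  rw [map_prod, Fintype.prod_sum_type, Tw.E, map_prod, ← Finset.prod_coe_sort b.σ]
  simp only [Pe.P, Sum.elim_inl, Sum.elim_inr, map_one, Finset.prod_const_one, mul_one,
    Polynomial.hom_eval₂]
  refine Finset.prod_congr rfl fun y _ => congrArg₂ (Polynomial.eval₂ · · _) rfl ?_
  rw [p.n.lim]
  simp only [← map_pow (mj _), Sy.succ.ur_p]
  refine mj_ul fun j => ?_
  have := Z_ch p 1 (b.pl.σ y) (t.e j (b.pl.σ y)).val (t.e' j (b.pl.σ y)).val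
  rwa [one_mul, map_one, one_mul, ← map_pow] at this

end Gk

open Gk

/-- **row GLK** -/
theorem glk : GLK := fun b t x k p a₀ a₁ a₂ a₃ => by
  have m j := (x.gr j).pow (x.ad j) (t.N j)
  choose K k1 k2 k3 k4 using fun j =>
    Dr.kol1 (ι := p.f j) (x.gr j) (x.eu j) (m j) (cd1 x p j) (nil p j) b.cc
  refine ⟨K, .of_forall fun j => ⟨(x.gr j).pos _ (m j), k1 j, fun n hn => ?_⟩, fun _ => rfl, rfl, hP p,
    fun j y => Z p (Function.surjInv (p.n.sur j) y), fun y => ?_, (U_ge k).mono fun j e => ?_⟩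
  · have c := (k1 j).cc0 (k2 j) ((x.gr j).pos _ (m j)) (cd1 x p j) (ug b _) hn
    refine ⟨fun g h => c.coc g trivial h trivial, c.lc, fun g h => c.unr g (P022K.G2.In_anti
      (Finset.coe_subset.2 (Finset.union_subset_union_left (Finset.union_subset
        Finset.subset_union_left fun l a => ?_))) h), k3 j n hn⟩
    obtain ⟨l1, l2, -⟩ := Nat.mem_primeFactors.1 a
    exact (l1.dvd_mul.1 l2).elim
      (fun d => x.pf j (Nat.mem_primeFactors.2 ⟨l1, d, (x.gr j).pos _ (x.ad j)⟩)) fun d => by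
        rw [(Nat.prime_dvd_prime_iff_eq l1 pp_prime).1 (l1.dvd_of_dvd_pow d)]
        exact Finset.mem_union_left _ b.two
  · have := (congrArg p.n.ψ (funext fun j => Function.surjInv_eq (p.n.sur j) (y j))).symm.trans
      (p.n.lim _)
    exact (ul_spec _ k).mono fun j e => (Ideal.Quotient.eq.2 e).trans
      (congrArg (fun z => mj k z.re) this.symm)
  · let F := (p.n.i j).liftOfSurjective (p.n.sur j) ⟨Z p, fun y h =>
      Ideal.Quotient.eq_zero_iff_mem.2 (Im_anti (e.trans j.le_succ) ((p.n.ker j y).1 h).1)⟩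
    have hF (y) : F (p.n.i j y) = Z p y := RingHom.liftOfSurjective_comp_apply ..
    refine ⟨F, rfl, fun r hr => ?_⟩
    have e1 : F.comp (p.f j) = r.comp (t.ι j) := RingHom.ext_zmod _ _
    have e2 : F.toMonoidHom.comp (p.Ψ j) = r.toMonoidHom.comp (t.Ψ j) := MonoidHom.ext fun g => by
      show F (p.Ψ j g) = r (t.Ψ j g)
      rw [p.hΨ, hF, Z_ch, t.hΨ, map_mul, map_pow, hr]
      exact congrArg (· * _) (hr _).symm
    have e3 (g) : (aa (b.ρ (t.N j)) (p.f j) (p.Ψ j) g).map F = (t.a j g).map r := by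
      rw [Dr.aa_map, e1, e2, ← Dr.aa_map]; rfl
    have e4 (g i) : F (x.z j (x.M j * pp ^ t.N j) _ (p.f j) (p.Ψ j) g i) = r (x.cl j g i) := by
      rw [(x.eu j).map _ _ _ F _ _ _ _ (m j), e1, e2,
        (x.eu j).pow (x.gr j) (x.ad j) ((cd0 x j).map r), ← (x.eu j).map _ _ _ r _ _ _ _ (x.ad j)]
      rfl
    refine ⟨e3, fun i => hF _, r ∘ x.cl j b.c, fun g _ => funext fun i => ?_⟩
    show F (K j ∅ g i) - r (2 • x.cl j g i) = _
    rw [k4, Pi.add_apply, Pi.sub_apply, map_add, map_sub, RingHom.map_mulVec, e3, Pi.smul_apply,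
      map_nsmul, map_nsmul, e4, e4, add_sub_cancel_left, show F ∘ _ = r ∘ _ from funext (e4 _)]
    rfl

end Vale.Agent.P014U.Pp
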