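import Vale.Agent.P014U.Pp.St
import Vale.Agent.P004S.A.Loc
import Vale.Agent.P022K.G2.Kum

/-! # P014U, block PATQ, row GL0: the level data of the perturbed tower -/

set_option linter.all false

open NumberField Matrix Filter PowerSeries Sum
open scoped Classical

noncomputable section

namespace Vale.Agent.P014U.Pp

variable [Pp]

open Vale.Agent.P022 (Qb GQ IsConj)
open Vale.Agent.P027M.S (Inert)
open Vale.Agent.P022D.W (dec)
open Vale.Agent.P022E.GW (Ov Fb)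
open Vale.Agent.P022K.G2 (Gz mem_Gz' zt_pow)
open Vale.Agent.P014U.X4F (La)
open Vale.Agent.P014U.X4F.Pat (rs)
open Vale.Agent.P014U.X4S.Aq (cz cz_spec cy_in)
open Pq (Gd Tm)
open Dr (Hm Zn aa am Hm_le Hm_open inert_Hm root_cong nil2 geom_nil aa_eq_one)
open Kq (M2)
open Mu (Tq)

namespace G0

section alg

variable {R : Type} [CommRing R]

/-- homomorphisms from the `pp`-adic integers -/
theorem uq (h : IsNilpotent (pp : R)) (φ φ' : ℤ_[pp] →+* R) (x : ℤ_[pp]) : φ x = φ' x := by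
  obtain ⟨n, h⟩ := h
  obtain ⟨y, e⟩ := Ideal.mem_span_singleton.1 (PadicInt.appr_spec n x)
  rw [eq_add_of_sub_eq e]
  simp [h]

theorem nilp : IsNilpotent (pp : ZMod pp) := ⟨1, by simp⟩

theorem ord [IsLocalRing R] [Finite R] (π : R →+* ZMod pp) (h : IsNilpotent (pp : R)) {u : R}
    (hu : π u = 1) : ∃ n : ℕ, u ^ pp ^ n = 1 := by
  obtain ⟨n, k⟩ := geom_nil h (x := u) (Ring.KrullDimLE.isNilpotent_iff_mem_maximalIdeal.2
    fun k => by simpa [hu] using k.map π)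
  exact ⟨n, by rw [← sub_eq_zero, ← geom_sum_mul, k n le_rfl, zero_mul]⟩

theorem uni {A : M2 R} (h : IsNilpotent (pp : R)) (k : (A - 1) ^ 2 = 0) : ∃ n : ℕ, A ^ pp ^ n = 1 := by
  obtain ⟨n, h⟩ := h
  have e : ∀ m : ℕ, A ^ m = 1 + (m : R) • (A - 1) := fun m => by
    induction m with
    | zero => simp
    | succ m i =>
      rw [pow_succ, i, Nat.cast_succ, add_smul, one_smul]
      nth_rw 2 [← sub_add_cancel A 1]
      rw [add_mul, mul_add, mul_add, smul_mul_assoc, ← sq (A - 1), k]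
      simp only [one_mul, mul_one, smul_zero]
      abel
  exact ⟨n, by rw [e, Nat.cast_pow, h, zero_smul, add_zero]⟩

theorem dual (A : M2 R) {x y : R} (h : x * y = 1) :
    (x • A)ᵀ * Jm R * (y • A) = A.det • Jm R := by
  rw [transpose_smul, smul_mul_assoc, smul_mul_assoc, mul_smul_comm, smul_smul, h, one_smul]
  ext i j
  fin_cases i <;> fin_cases j <;> simp [Jm, mul_apply, det_fin_two] <;> ring

theorem dt {A : M2 R} {s w : R} (h : s * s = -w + -w * s) (d : A.det = 1) (t : A.trace = 2 - w) :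
    (1 - (1 + s) • A).det = 0 := by
  rw [det_fin_two] at d
  rw [trace_fin_two] at t
  simp [det_fin_two]
  linear_combination h + (1 + s) ^ 2 * d - (1 + s) * t

end alg

/-- primes congruent to one split in the cyclotomic field -/
theorem dec_Gz {l n : ℕ} {P : Ideal (𝓞 Qb)} {φ : GQ} (o : Ov l P) (f : Fb l P φ)
    (h : l % pp ^ (n + 1) = 1) : dec P ≤ Gz pp := by
  have e : l % pp = 1 := by
    rw [← Nat.mod_mod_of_dvd l (dvd_pow_self pp n.succ_ne_zero), h, Nat.mod_eq_of_lt one_lt]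
  have d : ¬ l ∣ pp := fun k => by
    rw [(Nat.prime_dvd_prime_iff_eq o.1 pp_prime).1 k, Nat.mod_self] at e
    exact zero_ne_one e
  exact (P004S.Aq.frob0 o f (H := Hm pp) (mem_nhdsWithin_of_mem_nhds ((Hm_open pp_ne).mem_nhds
    (one_mem _))) (fun g i => inert_Hm o d i) fun z hz => by
      rw [root_cong o d f hz, pow_eq_pow_mod l hz, e, pow_one]).trans
    fun g m => mem_Gz'.2 (m _ zt_pow)

theorem ferm {M k : ℕ} (h : (pp - 1) * pp ^ k ∣ M) {u : ZMod pp} (hu : IsUnit u) : u ^ M = 1 := by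
  obtain ⟨m, rfl⟩ := h
  rw [mul_assoc, pow_mul, ZMod.pow_card_sub_one_eq_one hu.ne_zero, one_pow]

theorem evn {M k : ℕ} (h : (pp - 1) * pp ^ k ∣ M) : 2 ∣ M :=
  ((pp_odd.tsub_odd odd_one).two_dvd.mul_right _).trans h

theorem tq_ker {S : Finset ℕ} {n c : ℕ} {e : GQ → ZMod (pp ^ n)} (h : Tq S n c e) {g : GQ}
    (m : g ∈ Hm c) : e g = 0 := h.ker g m

variable {b : Bs} {t : Tw b} {k : ℕ} (p : Pe t k) (j : ℕ) {g : GQ}

/-- the constants -/
abbrev cs : ℤ_[pp] →+* p.n.R j := (p.n.i j).comp (kq p.w)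

theorem aa_eq (Φ : GQ →* p.n.R j) (g : GQ) :
    aa (b.ρ (t.N j)) (p.f j) Φ g = Φ g • (b.r g).map (cs p j) :=
  congrArg (Φ g • ·) (Matrix.ext fun a a' =>
    uq (nil2 (p.f j)) ((p.f j).comp (PadicInt.toZModPow _)) (cs p j) (b.r g a a'))

/-- both sides -/
def Sd (Φ : GQ →* p.n.R j) : Prop := Φ = p.Ψ j ∨ Φ = p.Ψ' j

variable {p j} {Φ : GQ →* p.n.R j}

theorem Sd.val (s : Sd p j Φ) (h1 : cs p j (cz g) ^ p.M = 1) (h2 : t.e j g = 0)
    (h3 : t.e' j g = 0) : Φ g = cs p j (b.ε g) := by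
  have e : p.Ψ j g = cs p j (b.ε g) := by
    rw [p.hΨ, h2, h3, ZMod.val_zero, ch, pow_zero, pow_zero, mul_one, mul_one]
    exact (map_mul (cs p j) _ _).trans (by rw [map_pow, h1, mul_one])
  obtain rfl | rfl := s
  · exact e
  · have := p.inv j g
    rw [e] at this
    rw [← one_mul (p.Ψ' j g), ← map_one (cs p j), ← b.sq g, map_pow, sq, mul_assoc, this, mul_one]

theorem Sd.res (s : Sd p j Φ) (g : GQ) : p.n.π j (Φ g) = 1 := by
  have e : p.n.π j (p.Ψ j g) = 1 := by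
    have a1 : p.n.π j (p.n.i j (algebraMap La _ (1 + X))) = 1 := by
      rw [p.n.res, QuadraticAlgebra.algebraMap_re]
      simp [rs]
    have a2 : p.n.π j (p.n.i j (1 + QuadraticAlgebra.omega)) = 1 := by
      rw [p.n.res, QuadraticAlgebra.re_add, QuadraticAlgebra.omega_re, add_zero]
      exact map_one rs
    rw [p.hΨ, ch, b.one, one_mul]
    simp only [map_mul, map_pow, a1, a2, one_pow, mul_one]
    exact ferm p.Mk ((((cz g).isUnit.map _).map _).map _)
  obtain rfl | rfl := s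
  · exact e
  · simpa [e] using congrArg (p.n.π j) (p.inv j g)

theorem mem_T {l : ℕ} (h : l.Prime) : l ∈ t.T j ↔ l ∣ t.c j ∨ l ∣ t.q j :=
  Nat.mem_primeFactors.trans ⟨fun a => h.dvd_mul.1 a.2.1, fun a => ⟨h, h.dvd_mul.2 a,
    mul_ne_zero (t.tq j).sq.ne_zero (t.pq j).1.ne_zero⟩⟩

theorem out {l : ℕ} (h : l ∈ b.S) : l ∉ t.T j := fun m =>
  ((mem_T (b.pr l h)).1 m).elim (fun d => ((t.tq j).cy l (b.pr l h) d).2 h) fun d =>
    (t.pq j).2.1 ((Nat.prime_dvd_prime_iff_eq (b.pr l h) (t.pq j).1).1 d ▸ h)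

theorem Sd.ine (s : Sd p j Φ) {l : ℕ} {P : Ideal (𝓞 Qb)} (o : Ov l P) (l2 : l ≠ pp)
    (h : l ∉ t.T j) (i : Inert P g) : am (b.ρ (t.N j)) (p.f j) Φ g = (b.ε g • b.r g).map (cs p j) := by
  have e : (cz g : ℤ_[pp]) = 1 := Subtype.ext (cy_in o l2 i)
  rw [mem_T o.1, not_or] at h
  refine (aa_eq p j Φ g).trans ?_
  rw [s.val (by rw [e, map_one, one_pow]) (tq_ker (t.tq j) (inert_Hm o h.1 i))
    (tq_ker (t.tq' j) (inert_Hm o h.2 i)), Matrix.map_smul' _ _ _ (map_mul _)]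

theorem Sd.gd (x : t.Es) (s : Sd p j Φ) : Gd ⊤ (b.S ∪ t.T j) (am (b.ρ (t.N j)) (p.f j) Φ) := by
  refine ⟨isOpen_univ, inferInstance, fun l m => (Finset.mem_union.1 m).elim (b.pr l)
    Nat.prime_of_mem_primeFactors, map_one _, fun g _ h _ => map_mul _ g h,
    ⟨(b.ρ (t.N j)).ker ⊓ Hm (x.M j), (b.lc _).inter (Hm_open ((x.gr j).pos _ (x.ad j))),
      fun g _ m => aa_eq_one m.1 ?_⟩, fun g _ ⟨l, m, P, o, i⟩ => ?_⟩
  · have e : cs p j (cz g) = 1 := by
      rw [← b.det, uq (nil2 (p.f j)) _ ((p.f j).comp (PadicInt.toZModPow _)), RingHom.comp_apply,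
        RingHom.map_det, show RingHom.mapMatrix _ _ = 1 from m.1, det_one, map_one]
    rw [s.val (by rw [e, one_pow]) (tq_ker (t.tq j) (Hm_le ((dvd_mul_right _ _).trans (x.dv j)) m.2))
      (tq_ker (t.tq' j) (Hm_le ((dvd_mul_left _ _).trans (x.dv j)) m.2)), x.cd j g m.2, map_one]
  · rw [Finset.mem_coe, Finset.mem_union, not_or] at m
    rw [s.ine o (fun e => m.1 (e ▸ b.two)) m.2 i, (b.unr l P g o m.1 i).1, (b.unr l P g o m.1 i).2,
      one_smul, Matrix.map_one _ (map_zero _) (map_one _)]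

theorem Sd.tm (s : Sd p j Φ) (h : ∀ i, p.en j i ∈ (t.c j).primeFactors) (y : b.σ ⊕ Fin p.d) :
    Tm (am (b.ρ (t.N j)) (p.f j) Φ) ((p.q j).l y) ((p.q j).P y) ((p.q j).φ y) ((p.q j).t y) := by
  rcases y with y | y
  · obtain ⟨m, l2⟩ := b.sub y y.2
    have o := b.pl.ov y (b.pr y m)
    refine ⟨o, l2, b.pl.fb y o.1, b.pl.gn y o.1 l2, fun g i => ?_⟩
    rw [s.ine o l2 (out m) i]
    exact uni (nil2 (p.f j)) (by
      have := congrArg (cs p j).mapMatrix (b.uni y y.2 g i)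
      rwa [map_pow, map_sub, map_one, map_zero] at this)
  · obtain ⟨a, d, -⟩ := Nat.mem_primeFactors.1 (h y)
    have m := ((t.tq j).cy _ a d).2
    have l2 : p.en j y ≠ pp := fun e => m (e ▸ b.two)
    have o := b.pl.ov _ a
    refine ⟨o, l2, b.pl.fb _ a, b.pl.gn _ a l2, fun g i => ?_⟩
    obtain ⟨n, e⟩ := ord (p.n.π j) (nil2 (p.f j)) (s.res g)
    refine ⟨n, (congrArg (· ^ pp ^ n) (aa_eq p j Φ g)).trans ?_⟩
    simp [(b.unr _ _ g o m i).1, smul_pow, e]

theorem res (s : Sd p j Φ) (g : GQ) :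
    (am (b.ρ (t.N j)) (p.f j) Φ g).map (p.n.π j) = (b.r g).map PadicInt.toZMod := by
  refine (congrArg (Matrix.map · (p.n.π j)) (aa_eq p j Φ g)).trans ?_
  ext a a'
  rw [map_apply, Matrix.smul_apply, smul_eq_mul, map_mul, s.res, one_mul]
  exact uq nilp ((p.n.π j).comp (cs p j)) PadicInt.toZMod (b.r g a a')

theorem lv (x : t.Es) (h : Function.Injective (p.en j) ∧
    ∀ l, l ∈ (t.c j).primeFactors ↔ ∃ i, p.en j i = l) : p.fr.Lv j := by
  have s : Sd p j (p.Ψ j) := .inl rfl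
  have s' : Sd p j (p.Ψ' j) := .inr rfl
  have h2 := fun i => (h.2 _).2 ⟨i, rfl⟩
  have hT : ∀ i, p.en j i ∈ t.T j := fun i =>
    (mem_T (Nat.prime_of_mem_primeFactors (h2 i))).2 (.inl (Nat.dvd_of_mem_primeFactors (h2 i)))
  obtain ⟨t1, t2, t3, t4⟩ := p.hτ j
  have t5 : (cz (p.τ j) : ℤ_[pp]) = 1 := by rw [← b.det, t1, p.du]
  have v : ∀ n, (1 : ZMod (pp ^ (n + 1))).val = 1 := fun n =>
    ZMod.val_one'' (Nat.one_lt_pow n.succ_ne_zero one_lt).ne'
  refine ⟨rfl, s.gd x, s'.gd x, fun g => ?_, ?_, ?_, ?_, s.tm h2, s'.tm h2, fun _ => rfl,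
    fun _ => rfl, fun z hz => ?_, ?_⟩
  · exact (dual ((b.ρ (t.N j) g).map (p.f j)) (p.inv j g)).trans (congrArg (· • Jm _)
      (((p.f j).map_det _).symm.trans (congrArg (p.f j) (((PadicInt.toZModPow _).map_det _).symm.trans
        (congrArg _ (b.det g))))))
  · obtain ⟨φ, e⟩ := b.cc
    have c2 : b.c * b.c = 1 := AlgEquiv.ext fun x => φ.injective (by
      rw [AlgEquiv.mul_apply, e, e, starRingEnd_self_apply]; rfl)
    obtain ⟨m, hm⟩ := evn p.Mk
    refine (congrArg (· *ᵥ _) (aa_eq p j _ b.c)).trans ?_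
    rw [s.val (by rw [hm, pow_mul, sq, ← map_mul, ← Units.val_mul, ← map_mul, c2]; simp)
      ((t.tq j).cj _ b.cc) ((t.tq' j).cj _ b.cc), b.εc, map_one, one_smul]
    exact funext fun i => ((cs p j).map_mulVec _ b.gp i).symm.trans (by rw [b.fix]; rfl)
  · rintro (y | y)
    exacts [Finset.mem_union_left _ (b.sub y y.2).1, Finset.mem_union_right _ (hT y)]
  · rintro (y | y) (y' | y') (e : _ = _)
    exacts [congrArg _ (Subtype.ext e),
      absurd ((show y.1 = p.en j y' from e) ▸ hT y' :) (out (b.sub y y.2).1),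
      absurd ((show p.en j y = y'.1 from e) ▸ hT y :) (out (b.sub y' y'.2).1), congrArg _ (h.1 e)]
  · exact (cz_spec (p.τ j) hz).trans (by rw [t5, map_one, v, pow_one])
  · refine (congrArg (fun A => (1 - A).det) (aa_eq p j _ (p.τ j))).trans ?_
    rw [p.hΨ, t1, t2, t3, t4, t5, v, ch]
    simp only [one_pow, mul_one, map_one, ZMod.val_zero, pow_zero, pow_one, one_mul, map_add]
    refine dt (w := cs p j p.w) ?_ (((cs p j).map_det _).symm.trans (by rw [p.du, map_one]))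
      ((AddMonoidHom.map_trace (cs p j) _).symm.trans (by
        rw [show (b.r p.u).trace = 2 - p.w from eq_sub_of_add_eq' (eq_sub_iff_add_eq.1 p.hw), map_sub,
          map_ofNat]))
    rw [← map_mul, QuadraticAlgebra.omega_mul_omega_eq_algebraMap, ← map_neg, map_add, map_mul]
    rfl

end G0

open G0

/-- **row GL0** -/
theorem gl0 : GL0 := fun b t x k p => by
  refine ⟨p.hen.mono fun j => lv x, b.two, b.cc, p.ov, ⟨t.m + 1, fun j => ?_⟩,
    fun g => (b.r g).map PadicInt.toZMod, ⟨isOpen_univ, inferInstance, b.pr, ?_,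
      fun g _ h _ => by rw [map_mul, Matrix.map_mul], ⟨(b.ρ 1).ker, b.lc 1, fun g _ m => ?_⟩,
      fun g _ ⟨l, m, P, o, i⟩ => ?_⟩, p.hen.mono fun j h => ⟨fun g => ⟨res (.inl rfl) g, res (.inr rfl) g⟩, t.q j,
      Finset.mem_union_right _ ((mem_T (t.pq j).1).2 (.inr dvd_rfl)),
      fun e => (t.pq j).2.1 (e ▸ b.two), ?_, _, b.pl.ov _ (t.pq j).1,
      dec_Gz (b.pl.ov _ (t.pq j).1) (b.pl.fb _ (t.pq j).1)
        ((t.tq' j).cy _ (t.pq j).1 dvd_rfl).1, t.spl j⟩⟩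
  · refine (Finset.card_le_card (t := insert (t.q j) (t.c j).primeFactors) fun l m => ?_).trans
      ((Finset.card_insert_le _ _).trans (Nat.succ_le_succ (t.crd j)))
    have a := Nat.prime_of_mem_primeFactors m
    exact Finset.mem_insert.2 (((mem_T a).1 m).symm.imp (Nat.prime_dvd_prime_iff_eq a (t.pq j).1).1
      fun d => Nat.mem_primeFactors.2 ⟨a, d, (t.tq j).sq.ne_zero⟩)
  · rw [map_one, Matrix.map_one _ (map_zero _) (map_one _)]
  · let f := ZMod.castHom (show pp ∣ pp ^ 1 by simp) (ZMod pp)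
    exact (Matrix.ext fun a a' => uq nilp PadicInt.toZMod (f.comp (PadicInt.toZModPow 1))
      (b.r g a a')).trans
      ((congrArg f.mapMatrix m).trans (map_one _))
  · rw [(b.unr l P g o m i).1, Matrix.map_one _ (map_zero _) (map_one _)]
  · rintro (y | y) (e : _ = _)
    exacts [(t.pq j).2.1 ((show y.1 = t.q j from e) ▸ (b.sub y y.2).1 :), (t.pq j).2.2
      ((show p.en j y = t.q j from e) ▸ Nat.dvd_of_mem_primeFactors ((h.2 _).2 ⟨y, rfl⟩) :)]

end Vale.Agent.P014U.Pp
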