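import Vale.Agent.P014U.Kq.Sy
import Vale.Agent.P014U.X4F.Pat.Lim
import Vale.Agent.P014T.Pp.Rng

/-! # P014U, block PATQ (odd prime), row RNG: the quadratic level rings and their limit -/

set_option linter.all false

open PowerSeries Filter

noncomputable section

namespace Vale.Agent.P014U.Pp.Rg

export Vale.Agent.P014T.Pp.Rg (qm qz rt rt_sq dec norm_rt dvd_norm)

variable [Pp]

open Vale.Agent.P014U.X4F.Pat
open Kq (Rq Un)

section qa

variable {R S : Type} [CommRing R] [CommRing S] {a b : R}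

theorem un_of {x : QuadraticAlgebra R a b} (h : Un x.norm) : Un x :=
  h.imp fun c e => (dvd_norm x).trans (by simpa using map_dvd (algebraMap R (QuadraticAlgebra R a b)) e)

theorem pw_mem {I : Ideal R} (h2 : (pp : R) ∈ I) {x : R} (h : x - 1 ∈ I) (n : ℕ) :
    x ^ pp ^ n - 1 ∈ I ^ (n + 1) := by
  induction n with
  | zero => simpa using h
  | succ n ih =>
    have hy : Ideal.Quotient.mk I (x ^ pp ^ n) = 1 :=
      (Ideal.Quotient.eq.2 (Ideal.pow_le_self n.succ_ne_zero ih)).trans (map_one _)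
    rw [pow_succ pp, pow_mul, ← mul_geom_sum, pow_succ I (n + 1)]
    refine Ideal.mul_mem_mul ih (Ideal.Quotient.eq_zero_iff_mem.1 ?_)
    rw [map_sum, Finset.sum_congr rfl fun i _ => by rw [map_pow, hy, one_pow]]
    simpa using Ideal.Quotient.eq_zero_iff_mem.2 h2

/-- `1 + y` has order dividing `pp ^ (2 k)` when `pp ^ k = y ^ k = 0` -/
theorem pw_one {y : R} {k n : ℕ} (h2 : (pp : R) ^ k = 0) (hy : y ^ k = 0) (hn : 2 * k ≤ n + 1) :
    (1 + y) ^ pp ^ n = 1 := by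
  have h := pw_mem (I := Ideal.span {(pp : R)} ⊔ Ideal.span {y}) (Ideal.mem_sup_left (Ideal.mem_span_singleton_self _))
    (x := 1 + y) (Ideal.mem_sup_right (by simpa using Ideal.mem_span_singleton_self y)) n
  have k1 := Ideal.sup_pow_add_le_pow_sup_pow (I := Ideal.span {(pp : R)}) (J := Ideal.span {y}) (n := k) (m := k)
    (Ideal.pow_le_pow_right (by omega) h)
  rwa [Ideal.span_singleton_pow, Ideal.span_singleton_pow, h2, hy, sup_idem, Ideal.mem_span_singleton,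
    zero_dvd_iff, sub_eq_zero] at k1

end qa

/-- the reduction to the level `j + 1` -/
abbrev mq (j : ℕ) : La →+* Rk (j + 1) := Ideal.Quotient.mk (Im (j + 1))

variable (a b : ℤ_[pp])

/-- **the level rings** -/
abbrev Rl (j : ℕ) : Type := QuadraticAlgebra (Rk (j + 1)) (mq j (C a)) (mq j (C b))

/-- the reduction -/
def pq (j : ℕ) : Rq a b →+* Rl a b j := qm (mq j) rfl rfl

/-- the unperturbed level inside the level ring -/
abbrev iq (j : ℕ) : Rk (j + 1) →+* Rl a b j := algebraMap _ _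

/-- the constants -/
def cq (j : ℕ) : ℤ_[pp] →+* Rl a b j := (iq a b j).comp ((mq j).comp C)

/-- **the limit** -/
def uq : (∀ j, Rl a b j) →+* Rq a b where
  toFun x := ⟨Sy.succ.ur fun j => (x j).re, Sy.succ.ur fun j => (x j).im⟩
  map_one' := QuadraticAlgebra.ext Sy.succ.ur.map_one Sy.succ.ur.map_zero
  map_zero' := QuadraticAlgebra.ext Sy.succ.ur.map_zero Sy.succ.ur.map_zero
  map_add' x y := QuadraticAlgebra.ext (Sy.succ.ur.map_add _ _) (Sy.succ.ur.map_add _ _)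
  map_mul' x y := by
    refine QuadraticAlgebra.ext ?_ ?_
    · exact (Sy.succ.ur.map_add ((fun j => (x j).re) * fun j => (y j).re)
        ((fun j => mq j (C a)) * (fun j => (x j).im) * fun j => (y j).im)).trans (by
          rw [map_mul, map_mul, map_mul, Sy.succ.ur_const]; rfl)
    · exact (Sy.succ.ur.map_add (((fun j => (x j).re) * fun j => (y j).im) + (fun j => (x j).im) * fun j => (y j).re)
        ((fun j => mq j (C b)) * (fun j => (x j).im) * fun j => (y j).im)).trans (by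
          rw [map_add, map_mul, map_mul, map_mul, map_mul, Sy.succ.ur_const]; rfl)

instance fin (j : ℕ) : Finite (Rl a b j) := .of_equiv _ (QuadraticAlgebra.equivProd _ _).symm

variable {a b} {j k : ℕ}

theorem uq_re (x : ∀ j, Rl a b j) : (uq a b x).re = Sy.succ.ur fun j => (x j).re := rfl

theorem uq_im (x : ∀ j, Rl a b j) : (uq a b x).im = Sy.succ.ur fun j => (x j).im := rfl

theorem uq_ae : Ae (uq a b) := fun x y h =>
  QuadraticAlgebra.ext (Sy.succ.ur_ae (h.mono fun j e => by rw [e])) (Sy.succ.ur_ae (h.mono fun j e => by rw [e]))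

theorem uq_pq (x : Rq a b) : uq a b (fun j => pq a b j x) = x :=
  QuadraticAlgebra.ext (Sy.succ.ur_const _) (Sy.succ.ur_const _)

theorem uq_iq (x : ∀ j, Rk (j + 1)) :
    uq a b (fun j => iq a b j (x j)) = algebraMap La _ (Sy.succ.ur x) :=
  QuadraticAlgebra.ext rfl Sy.succ.ur.map_zero

theorem pq_alg (x : La) : pq a b j (algebraMap La _ x) = iq a b j (mq j x) :=
  QuadraticAlgebra.ext rfl (mq j).map_zero

theorem pq_rt : pq a b j rt = rt := QuadraticAlgebra.ext (mq j).map_zero (mq j).map_one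

theorem pq_sur : Function.Surjective (pq a b j) := fun x => by
  obtain ⟨u, hu⟩ := Ideal.Quotient.mk_surjective x.re
  obtain ⟨v, hv⟩ := Ideal.Quotient.mk_surjective x.im
  exact ⟨⟨u, v⟩, QuadraticAlgebra.ext hu hv⟩

theorem uq_rt : uq a b (fun _ => rt) = rt :=
  QuadraticAlgebra.ext Sy.succ.ur.map_zero Sy.succ.ur.map_one

theorem uq_cq (x : ℤ_[pp]) : uq a b (fun j => cq a b j x) = algebraMap La _ (C x) :=
  (uq_iq _).trans (congrArg _ (Sy.succ.ur_const _))

theorem lm_pq {m n : Type} (A : Matrix m n (Rq a b)) : lm (uq a b) (fun j => A.map (pq a b j)) = A :=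
  Matrix.ext fun x y => uq_pq (A x y)

theorem lm_iq {m n : Type} (A : ∀ j, Matrix m n (Rk (j + 1))) :
    lm (uq a b) (fun j => (A j).map (iq a b j)) = (Sy.succ.um A).map (algebraMap La _) :=
  Matrix.ext fun x y => uq_iq fun j => A j x y

theorem two_mq : (pp : Rk (j + 1)) ^ (j + 1) = 0 := by
  rw [← map_natCast (mq j), ← map_pow]; exact Ideal.Quotient.eq_zero_iff_mem.2 (two_Im _)

theorem X_mq : mq j X ^ (j + 1) = 0 := by
  rw [← map_pow]; exact Ideal.Quotient.eq_zero_iff_mem.2 (X_Im _)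

theorem two_pow : (pp : Rl a b j) ^ (j + 1) = 0 := by
  rw [← map_natCast (iq a b j), ← map_pow, two_mq, map_zero]

theorem cq_zero {x : ℤ_[pp]} (h : (pp : ℤ_[pp]) ^ (j + 1) ∣ x) : cq a b j x = 0 := by
  obtain ⟨y, rfl⟩ := h
  rw [map_mul, map_pow, map_natCast, two_pow, zero_mul]

theorem cq_rt : (rt : Rl a b j) ^ 2 = cq a b j a + cq a b j b * rt := rt_sq

theorem rt_nil (ha : (pp : ℤ_[pp]) ∣ a) (hb : (pp : ℤ_[pp]) ∣ b) : (rt : Rl a b j) ^ (2 * (j + 1)) = 0 := by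
  obtain ⟨a', e⟩ := ha
  obtain ⟨b', e'⟩ := hb
  have : (rt : Rl a b j) ^ 2 = (pp : Rl a b j) * (cq a b j a' + cq a b j b' * rt) := by
    rw [cq_rt, show cq a b j a = cq a b j (pp * a') from congrArg _ e,
      show cq a b j b = cq a b j (pp * b') from congrArg _ e', map_mul, map_mul, map_natCast]
    ring
  rw [pow_mul, this, mul_pow, two_pow, zero_mul]

theorem C_Im {x : ℤ_[pp]} (h : (pp : ℤ_[pp]) ^ k ∣ x) : (C x : La) ∈ Im k := by
  obtain ⟨y, rfl⟩ := h
  rw [map_mul, ← two_C]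
  exact (Im k).mul_mem_right _ (two_Im k)

/-- the residue map -/
def rq (ha : (pp : ℤ_[pp]) ∣ a) (j : ℕ) : Rl a b j →+* ZMod pp :=
  qz (rk j) (rs_zero.2 (C_Im (by simpa using ha)))

theorem rq_iq (ha : (pp : ℤ_[pp]) ∣ a) (x : Rk (j + 1)) : rq ha j (iq a b j x) = rk j x := rfl

theorem rq_cq (ha : (pp : ℤ_[pp]) ∣ a) (x : ℤ_[pp]) : rq ha j (cq a b j x) = PadicInt.toZMod x := by
  show rs (C x) = _
  simp [rs]

theorem rq_rt (ha : (pp : ℤ_[pp]) ∣ a) : rq ha j (rt : Rl a b j) = 0 := (rk j).map_zero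

theorem rk_nil {x : Rk (j + 1)} (h : rk j x = 0) : IsNilpotent x := by
  obtain ⟨y, rfl⟩ := Ideal.Quotient.mk_surjective x
  obtain ⟨u, v, rfl⟩ := Ideal.mem_span_pair.1 (rs_zero.1 h)
  rw [map_add, map_mul, map_mul, pow_one, pow_one, map_natCast]
  exact (Commute.all _ _).isNilpotent_add ((Commute.all _ _).isNilpotent_mul_left ⟨_, two_mq⟩)
    ((Commute.all _ _).isNilpotent_mul_left ⟨_, X_mq⟩)

theorem rq_nil (ha : (pp : ℤ_[pp]) ∣ a) (hb : (pp : ℤ_[pp]) ∣ b) {x : Rl a b j} (h : rq ha j x = 0) : IsNilpotent x := by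
  rw [dec x]
  exact (Commute.all _ _).isNilpotent_add ((rk_nil h).map _)
    ((Commute.all _ _).isNilpotent_mul_left ⟨_, rt_nil ha hb⟩)

theorem rq_one (ha : (pp : ℤ_[pp]) ∣ a) (hb : (pp : ℤ_[pp]) ∣ b) {x : Rl a b j} (h : rq ha j x = 1) : IsNilpotent (x - 1) :=
  rq_nil ha hb (by rw [map_sub, h, map_one, sub_self])

theorem rq_unit (ha : (pp : ℤ_[pp]) ∣ a) (hb : (pp : ℤ_[pp]) ∣ b) {x : Rl a b j} : IsUnit x ↔ rq ha j x ≠ 0 := by
  refine ⟨fun h => (h.map _).ne_zero, fun h => ?_⟩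
  obtain ⟨y, hy⟩ := ZMod.ringHom_surjective (rq (b := b) ha j) (rq ha j x)⁻¹
  have := (rq_one ha hb (x := x * y) (by rw [map_mul, hy, mul_inv_cancel₀ h])).isUnit_add_one
  rw [sub_add_cancel] at this
  exact isUnit_of_mul_isUnit_left this

theorem loc (ha : (pp : ℤ_[pp]) ∣ a) (hb : (pp : ℤ_[pp]) ∣ b) (j : ℕ) : IsLocalRing (Rl a b j) :=
  .of_isUnit_or_isUnit_one_sub_self fun x => by
    rw [rq_unit ha hb, rq_unit ha hb, map_sub, map_one]
    by_cases h : rq ha j x = 0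
    · exact .inr (by rw [h, sub_zero]; exact one_ne_zero)
    · exact .inl h

theorem X_ord {n : ℕ} (hn : 2 * j + 1 ≤ n) : (1 + mq j X) ^ pp ^ n = 1 := pw_one two_mq X_mq (by omega)

theorem rt_ord (ha : (pp : ℤ_[pp]) ∣ a) (hb : (pp : ℤ_[pp]) ∣ b) {n : ℕ} (hn : 4 * j + 3 ≤ n) : (1 + rt : Rl a b j) ^ pp ^ n = 1 :=
  pw_one (k := 2 * (j + 1)) (pow_eq_zero_of_le (by omega) two_pow) (rt_nil ha hb) (by omega)

/-- the reduction modulo the root and `pp ^ k` -/
def zq {S : Type} [CommRing S] (f : Rk (j + 1) →+* S) (h : (pp : S) ^ k = 0) (ha : (pp : ℤ_[pp]) ^ k ∣ a) :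
    Rl a b j →+* S :=
  qz f (by obtain ⟨y, rfl⟩ := ha; simp [map_natCast, h])

theorem zq_iq {S : Type} [CommRing S] (f : Rk (j + 1) →+* S) (h : (pp : S) ^ k = 0) (ha : (pp : ℤ_[pp]) ^ k ∣ a)
    (x : Rk (j + 1)) : zq (b := b) f h ha (iq a b j x) = f x := rfl

theorem zq_rt {S : Type} [CommRing S] (f : Rk (j + 1) →+* S) (h : (pp : S) ^ k = 0) (ha : (pp : ℤ_[pp]) ^ k ∣ a) :
    zq (b := b) f h ha rt = 0 := f.map_zero

/-- the root divides a power of `pp` -/
theorem un_rt (ha : a ≠ 0) : Un (rt : Rq a b) := un_of ⟨a.valuation, by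
  rw [norm_rt, neg_dvd, two_C]
  exact map_dvd C ⟨↑(PadicInt.unitCoeff ha)⁻¹, (Units.eq_mul_inv_iff_mul_eq _).2
    ((mul_comm _ _).trans (PadicInt.unitCoeff_spec ha).symm)⟩⟩

section ch

variable {G A : Type} [Monoid G] [CommMonoid A] {n : ℕ} {x : A} {e : G → ZMod (pp ^ n)}

/-- the character `g ↦ x ^ e g` -/
def ch (hx : x ^ pp ^ n = 1) (h1 : e 1 = 0) (he : ∀ g h, e (g * h) = e g + e h) : G →* A where
  toFun g := x ^ (e g).val
  map_one' := by rw [h1, ZMod.val_zero, pow_zero]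
  map_mul' g h := by rw [he, ZMod.val_add, ← pow_eq_pow_mod _ hx, pow_add]

theorem ch_apply (hx : x ^ pp ^ n = 1) (h1 : e 1 = 0) (he : ∀ g h, e (g * h) = e g + e h) (g : G) :
    ch hx h1 he g = x ^ (e g).val := rfl

end ch

end Vale.Agent.P014U.Pp.Rg
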