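import Vale.Agent.P014U.X4F.St
import Vale.Agent.P014U.Pp.Rng
import Vale.Agent.P014T.Pp.G2a

/-! # P014U, block PATQ (odd prime), row GL2: algebra of the local factors -/

set_option linter.all false

open Matrix PowerSeries Filter nonZeroDivisors

noncomputable section

namespace Vale.Agent.P014U.Pp.G2

export Vale.Agent.P014T.Pp.G2 (nt_map det_l det_r det_u det_d det_sc det_sc' I2 mem_I2 I2_map
  geom_per nt_sc lm_nt co_pow)

variable [Pp]

open Vale.Agent.P014U.X4F.Pat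
open Vale.Agent.P004F.Pat (U)
open Kq (M2 F4 Rq)
open Rg (qz pw_mem)

section gen

variable {R : Type} [CommRing R]

theorem hom_ext {k : ℕ} (h : (pp : R) ^ k = 0) (f g : ℤ_[pp] →+* R) : f = g :=
  RingHom.ext fun x => by
    obtain ⟨y, e⟩ := Ideal.mem_span_singleton.1 (x.appr_spec k)
    rw [sub_eq_iff_eq_add.1 e]
    simp [h]

omit [Pp] in
theorem geom_mul (x : R) (a b : ℕ) : ∑ i ∈ Finset.range (a * b), x ^ i =
    (∑ i ∈ Finset.range a, x ^ i) * ∑ k ∈ Finset.range b, (x ^ a) ^ k := by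
  induction b with
  | zero => simp
  | succ b ih =>
    rw [Nat.mul_succ, Finset.sum_range_add, ih, Finset.sum_range_succ, mul_add,
      Finset.sum_mul _ _ ((x ^ a) ^ b)]
    simp only [pow_add, pow_mul, mul_comm]

theorem geom_mem {I : Ideal R} (h2 : (pp : R) ∈ I) {x : R} (h : x - 1 ∈ I) (n : ℕ) :
    ∑ i ∈ Finset.range (pp ^ n), x ^ i ∈ I ^ n := by
  induction n with
  | zero => simp
  | succ n ih =>
    have hy : Ideal.Quotient.mk I (x ^ pp ^ n) = 1 :=
      (Ideal.Quotient.eq.2 (Ideal.pow_le_self n.succ_ne_zero (pw_mem h2 h n))).trans (map_one _)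
    rw [pow_succ pp, geom_mul, pow_succ I]
    refine Ideal.mul_mem_mul ih (Ideal.Quotient.eq_zero_iff_mem.1 ?_)
    rw [map_sum, Finset.sum_congr rfl fun i _ => by rw [map_pow, hy, one_pow]]
    simpa using Ideal.Quotient.eq_zero_iff_mem.2 h2

theorem geom_zero {y u : R} {k n : ℕ} (h2 : (pp : R) ^ k = 0) (hy : y ^ k = 0) (hu : y ∣ u - 1)
    (hn : 2 * k ≤ n) : ∑ i ∈ Finset.range (pp ^ n), u ^ i = 0 := by
  have h := geom_mem (I := Ideal.span {(pp : R)} ⊔ Ideal.span {y})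
    (Ideal.mem_sup_left (Ideal.mem_span_singleton_self _))
    (Ideal.mem_sup_right (Ideal.mem_span_singleton.2 hu)) n
  have k1 := Ideal.sup_pow_add_le_pow_sup_pow (I := Ideal.span {(pp : R)}) (J := Ideal.span {y})
    (n := k) (m := k) (Ideal.pow_le_pow_right (by omega) h)
  rwa [Ideal.span_singleton_pow, Ideal.span_singleton_pow, h2, hy, sup_idem,
    Ideal.mem_span_singleton, zero_dvd_iff] at k1

end gen

/-- different from one, with constant term one -/
def Tc (y : (ZMod pp)⟦X⟧) : Prop := y ≠ 1 ∧ constantCoeff y = 1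

theorem Tc.inv {y z : (ZMod pp)⟦X⟧} (h : Tc y) (e : y * z = 1) : Tc z :=
  ⟨fun k => h.1 (by rwa [k, mul_one] at e), by simpa [h.2] using congrArg constantCoeff e⟩

theorem Tc.ev {y : (ZMod pp)⟦X⟧} (h : Tc y) {q : Polynomial (ZMod pp)} (h0 : q ≠ 0) :
    q.eval₂ C y ≠ 0 := by
  obtain ⟨r, e, k⟩ := q.exists_eq_pow_rootMultiplicity_mul_and_not_dvd h0 1
  rw [e, Polynomial.eval₂_mul, Polynomial.eval₂_pow, Polynomial.eval₂_sub, Polynomial.eval₂_X,
    Polynomial.eval₂_C, map_one]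
  refine mul_ne_zero (pow_ne_zero _ (sub_ne_zero.2 h.1)) fun a => k (Polynomial.dvd_iff_isRoot.2 ?_)
  have := congrArg constantCoeff a
  rwa [Polynomial.hom_eval₂, h.2, map_zero, constantCoeff_comp_C] at this

theorem tc_of {y : (ZMod pp)⟦X⟧} {n : ℕ} (h : X ^ (pp + 1) ∣ (1 + X) ^ n - y) (hn : ¬ pp ^ 2 ∣ n) :
    Tc y := by
  have a := fun i hi => sub_eq_zero.1 ((map_sub _ _ _).symm.trans (X_pow_dvd_iff.1 h i hi))
  simp only [co_pow] at a
  refine ⟨fun e => hn ?_, by simpa using (a 0 (by omega)).symm⟩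
  have b := a 1 (by have := pp_pos; omega)
  have c := a pp (by omega)
  simp only [e, coeff_one, one_ne_zero, pp_ne, if_false, ZMod.natCast_eq_zero_iff,
    Nat.choose_one_right] at b c
  obtain ⟨m, rfl⟩ := b
  have d := Choose.choose_modEq_choose_mod_mul_choose_div_nat (n := pp * m) (k := pp) (p := pp)
  rw [Nat.mul_mod_right, Nat.mod_self, Nat.mul_div_cancel_left _ pp_pos, Nat.div_self pp_pos,
    Nat.choose_self, one_mul, Nat.choose_one_right] at d
  rw [sq]
  exact mul_dvd_mul_left _ ((d.dvd_iff dvd_rfl).1 c)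

variable {w : ℤ_[pp]}

theorem tz (h : (pp : ℤ_[pp]) ∣ w) : PadicInt.toZMod w = 0 := by
  obtain ⟨y, rfl⟩ := h
  simp

/-- the reduction modulo the prime and the root -/
def pi2 (h : (pp : ℤ_[pp]) ∣ w) : Rq (-w) (-w) →+* (ZMod pp)⟦X⟧ :=
  qz (PowerSeries.map PadicInt.toZMod) (by simp [tz h])

theorem nzd (h : (pp : ℤ_[pp]) ∣ w) {x : Rq (-w) (-w)} (k : pi2 h x ≠ 0) :
    x ∈ (Rq (-w) (-w))⁰ := by
  refine QuadraticAlgebra.norm_mem_nonZeroDivisors_iff.1 (mem_nonZeroDivisors_of_ne_zero fun e => k ?_)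
  have := congrArg (PowerSeries.map PadicInt.toZMod) e
  show PowerSeries.map PadicInt.toZMod x.re = 0
  simpa [QuadraticAlgebra.norm_def, tz h] using this

theorem Im_X {k : ℕ} {f : La} (h : f ∈ Im (k + 1)) :
    X ^ (k + 1) ∣ PowerSeries.map PadicInt.toZMod f := X_pow_dvd_iff.2 fun i hi => by
  obtain ⟨y, e⟩ := mem_Im.1 h i hi
  simp [e]

theorem dvd_iff {n : ℕ} {x : ℤ_[pp]} : (pp : ℤ_[pp]) ^ n ∣ x ↔ PadicInt.toZModPow n x = 0 := by
  rw [← RingHom.mem_ker, PadicInt.ker_toZModPow, Ideal.mem_span_singleton]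

/-- the reduction modulo `pp ^ m`, `X` and the root -/
def th (m : ℕ) (h : (pp : ℤ_[pp]) ^ m ∣ w) : Rq (-w) (-w) →+* ZMod (pp ^ m) :=
  qz ((PadicInt.toZModPow m).comp constantCoeff) (by simp [dvd_iff.1 h])

/-- a power of the prime in the ideal -/
theorem two_mem {m : ℕ} (h : (pp : ℤ_[pp]) ^ m ∣ w) (h4 : ((pp : ℤ_[pp]) ^ 2) ^ m ∣ w)
    {I : Ideal (Rq (-w) (-w))} {d : Rq (-w) (-w)} (hd : d ∈ I) (d0 : th m h d ≠ 0)
    (hX : algebraMap La _ (X ^ 2) ∈ I) : ∃ e : ℕ, (pp : Rq (-w) (-w)) ^ e ∈ I := by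
  have a : constantCoeff d.norm ≠ 0 := fun e => d0 (dvd_iff.1
    ((IsIntegrallyClosed.pow_dvd_pow_iff two_ne_zero).1 (by
    obtain ⟨y, hy⟩ := h4
    simp only [QuadraticAlgebra.norm_def, map_sub, map_add, map_mul, constantCoeff_C] at e
    exact ⟨y * (constantCoeff d.re * constantCoeff d.im - constantCoeff d.im ^ 2), by
      rw [← pow_mul, mul_comm m, pow_mul]
      linear_combination e + (constantCoeff d.re * constantCoeff d.im - constantCoeff d.im ^ 2) * hy⟩)))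
  obtain ⟨g, hg⟩ := X_dvd_iff.2 (show constantCoeff (d.norm - C (constantCoeff d.norm)) = 0 by simp)
  obtain ⟨e, u, hu⟩ := IsDiscreteValuationRing.associated_pow_irreducible
    (pow_ne_zero 2 a) PadicInt.irreducible_p
  have b : (C (constantCoeff d.norm ^ 2) : La) ∈ I.comap (algebraMap La _) := by
    rw [show (C (constantCoeff d.norm ^ 2) : La) = d.norm * (d.norm - 2 * X * g) + X ^ 2 * g ^ 2 by
      rw [map_pow, eq_sub_of_add_eq' (eq_add_of_sub_eq hg).symm]; ring]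
    exact add_mem (Ideal.mul_mem_right _ _ (I.mem_of_dvd (Rg.dvd_norm d) hd))
      (Ideal.mul_mem_right _ _ hX)
  have c := Ideal.mul_mem_right (C (u : ℤ_[pp])) _ b
  rw [← map_mul, hu, Ideal.mem_comap] at c
  exact ⟨e, by simpa using c⟩

/-- the limit of powers with exponents prime to `pp` -/
theorem odd_lim {n : ℕ → ℕ} (h : ∀ᶠ j in U, ¬ pp ∣ n j) :
    ∃ v : La, IsUnit v ∧ (ul fun j => (1 + X) ^ n j) - 1 = X * v := by
  have a : ul ((fun j => (1 + X) ^ n j) - 1) ∈ Ideal.span {X} :=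
    ul_mem _ fun k => .of_forall fun j => Ideal.mem_sup_left
      (Ideal.mem_span_singleton.2 (X_dvd_iff.2 (by simp)))
  rw [map_sub, map_one] at a
  obtain ⟨v, e⟩ := Ideal.mem_span_singleton.1 a
  refine ⟨v, rs_unit.2 fun k => ?_, e⟩
  obtain ⟨j, b, c⟩ := (h.and (ul_spec (fun j => (1 + X) ^ n j) 2)).exists
  have d := X_pow_dvd_iff.1 (Im_X c) 1 (by omega)
  rw [eq_add_of_sub_eq e] at d
  simp only [coeff_map, map_sub, map_add, co_pow, coeff_succ_X_mul, coeff_zero_eq_constantCoeff,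
    Nat.choose_one_right, map_natCast] at d
  rw [show PadicInt.toZMod (constantCoeff v) = 0 from k, coeff_one, if_neg one_ne_zero, map_zero,
    add_zero, sub_zero, ZMod.natCast_eq_zero_iff] at d
  exact b d

theorem cz_one {m M : ℕ} (h : (pp - 1) * pp ^ m ∣ M) (x : ℤ_[pp]ˣ) :
    (pp : ℤ_[pp]) ^ (m + 1) ∣ (x : ℤ_[pp]) ^ M - 1 := by
  obtain ⟨c, rfl⟩ := h
  have a := pw_mem (I := Ideal.span {(pp : ℤ_[pp])}) (Ideal.mem_span_singleton_self _)
    (x := x ^ (pp - 1)) (by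
      rw [← PadicInt.maximalIdeal_eq_span_p, ← PadicInt.ker_toZMod, RingHom.mem_ker, map_sub, map_pow,
        ZMod.pow_card_sub_one_eq_one (x.isUnit.map _).ne_zero, map_one, sub_self]) m
  rw [Ideal.span_singleton_pow, Ideal.mem_span_singleton] at a
  rw [pow_mul, pow_mul]
  exact a.trans (sub_one_dvd_pow_sub_one _ _)

end Vale.Agent.P014U.Pp.G2
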