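import Vale.Agent.P014T.Pp.Bs0
import Vale.Agent.P014U.Pp.G2a
import Vale.Agent.P014U.X4F.Lt.Grp
import Vale.Agent.P014U.X4F.Pa.Ps

/-! # P014U, block PATQ (odd prime): unipotent inertia and the local factors -/

set_option linter.all false

open NumberField Matrix Polynomial

noncomputable section

namespace Vale.Agent.P014U.Pp.B0

export Vale.Agent.P014T.Pp.B0 (nil_mul tr_two prod_zero kol det_fix uni_pow minor)

open Vale.Agent.P022 (Qb GQ)
open Vale.Agent.P022.H443 (inP)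
open Vale.Agent.P027M.S (Inert)
open Vale.Agent.P022E.GW (Ov Fb)
open Vale.Agent.P004F (Nt M2)
open G2 (I2 mem_I2 det_r dvd_iff)

variable [Pp]

theorem odd_unit {p : ℕ} (hp : p.Prime) (h2 : p ≠ pp) : IsUnit (p : ℤ_[pp]) :=
  PadicInt.isUnit_iff.2 (PadicInt.norm_natCast_eq_one_iff.2
    ((Nat.coprime_primes pp_prime hp).2 h2.symm))

/-- the good factor -/
theorem eul_g {A : M2 ℤ_[pp]} {p : ℕ} (u : IsUnit (p : ℤ_[pp])) (d : A.det = p) :
    C (p : ℤ_[pp]) - C A.trace * X + X ^ 2 ∈ I2 (Nt ((X : ℤ_[pp][X]) • A.map C) 1 p) := by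
  rw [← Ideal.unit_mul_mem_iff_mem _ (u.map C)]
  convert mem_I2 _ (fromRows (0 : M2 _) (1 : M2 _)) using 1
  have := congrArg C d
  rw [Nt, det_r]
  simp [det_fin_two, trace_fin_two, Matrix.natCast_apply] at this ⊢
  linear_combination -X ^ 2 * this

/-- the multiplicative factor -/
theorem eul_m {A n : M2 ℤ_[pp]} {t : ℤ_[pp]} {p : ℕ} (u : IsUnit (p : ℤ_[pp])) (n0 : n ≠ 0)
    (a : n.trace = 0) (d : n.det = 0) (n2 : n * n = 0) (h1 : A * n = (t * p) • n)
    (h2 : A * (1 + n) = (1 + n) ^ p * A) : ∃ e : ℕ, (pp : ℤ_[pp][X]) ^ e * (C (p : ℤ_[pp]) - C t * X) ∈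
      I2 (Nt ((X : ℤ_[pp][X]) • A.map C) ((1 + n).map C) p) := by
  have h : n * A = t • n := by
    rw [uni_pow n2, mul_add, add_mul, mul_one, one_mul, add_right_inj, h1, mul_comm t, mul_smul,
      smul_mul_assoc] at h2
    exact (u.smul_left_cancel.1 h2).symm
  obtain ⟨i, n0⟩ := Function.ne_iff.1 n0
  obtain ⟨j, n0⟩ := Function.ne_iff.1 n0
  obtain ⟨e, y, hy⟩ := X4F.Pa.dvd_two_pow n0
  let f := (C : ℤ_[pp] →+* ℤ_[pp][X]).mapMatrix (m := Fin 2)
  have k := minor (A := (X : ℤ_[pp][X]) • f A) (n := f n) (t := C t * X) (p := p)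
    (c := ∑ i ∈ Finset.range p, (i : ℤ_[pp][X])) ((AddMonoidHom.map_trace C n).symm.trans (by rw [a, map_zero]))
    ((RingHom.map_det C n).symm.trans (by rw [d, map_zero])) (by
      rw [mul_smul_comm, ← map_mul, h, mul_comm (C t), mul_smul]
      exact congrArg _ (Matrix.map_smul' _ _ _ (map_mul _))) i j
  have w : ∀ m : ℕ, f (1 + n) ^ m = 1 + (m : ℤ_[pp][X]) • f n := fun m => by
    rw [map_add, map_one, uni_pow (by rw [← map_mul, n2, map_zero])]
  refine ⟨e, (Ideal.unit_mul_mem_iff_mem _ (u.map C)).1 ?_⟩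
  convert Ideal.mul_mem_right (C y) _ k using 1
  · rw [Nt, show (1 + n).map C = f (1 + n) from rfl]
    simp only [w, Finset.sum_add_distrib, Finset.sum_smul, Finset.sum_const, Finset.card_range,
      sub_add_cancel_left, Nat.cast_smul_eq_nsmul]
    rfl
  · have := congrArg C hy
    simp only [map_pow, map_mul, map_natCast] at this ⊢
    rw [this]
    show _ = _ * C _ * _
    ring

/-- the kernel of the reduction modulo `pp ^ n` -/
abbrev K0 (r : GQ →* M2 ℤ_[pp]) (n : ℕ) : Subgroup GQ :=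
  ((PadicInt.toZModPow n).mapMatrix.toMonoidHom.comp r).ker

variable {r : GQ →* M2 ℤ_[pp]} {l : ℕ} {P : Ideal (𝓞 Qb)} {φ τ : GQ}

theorem mem_K0 {n : ℕ} {g : GQ} : g ∈ K0 r n ↔ ∀ i i', (pp : ℤ_[pp]) ^ n ∣ (r g - 1) i i' := by
  rw [MonoidHom.mem_ker, ← sub_eq_zero, ← map_one (PadicInt.toZModPow n).mapMatrix]
  refine (Iff.of_eq (congrArg (· = 0) (map_sub (PadicInt.toZModPow n).mapMatrix (r g) 1).symm)).trans ?_
  rw [← Matrix.ext_iff]
  exact forall₂_congr fun i i' => dvd_iff.symm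

theorem zero_of {X : M2 ℤ_[pp]} (h : ∀ k i j, (pp : ℤ_[pp]) ^ k ∣ X i j) : X = 0 :=
  Matrix.ext fun i j => PadicInt.ext_of_toZModPow.1 fun k => (dvd_iff.1 (h k i j)).trans
    (map_zero _).symm

/-- unipotent inertia is generated by the tame generator -/
theorem tame (lc : ∀ n, IsOpen (K0 r n : Set GQ)) (o : Ov l P) (l2 : l ≠ pp) (f : Fb l P φ)
    (t : Gn l P τ) (z : ∀ g k, Inert P g → Inert P k → (r g - 1) * (r k - 1) = 0) :
    (r τ = 1 → ∀ g, Inert P g → r g = 1) ∧ r φ * r τ = r τ ^ l * r φ := by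
  refine ⟨fun e g i => sub_eq_zero.1 (zero_of fun k a b => ?_), ?_⟩
  · obtain ⟨j, hj⟩ := X4F.Lt.lt1 o k l2 t i (lc k)
    rw [dvd_iff, hj _ (fun g => PadicInt.toZModPow k ((r g - 1) a b))
      (fun x => by rw [nsmul_eq_mul, ZMod.natCast_self, zero_mul])
      (fun g _ m => dvd_iff.1 (mem_K0.1 m a b)) fun g h x y => by
        rw [← map_add, ← Matrix.add_apply, ← add_zero (r g - 1 + _), ← z g h x y, map_mul,
          show r g - 1 + (r h - 1) + (r g - 1) * (r h - 1) = r g * r h - 1 by noncomm_ring], e]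
    simp
  have m : φ * τ * φ⁻¹ * (τ ^ l)⁻¹ ∈ inP P := mul_mem (P022D.W.conj_inP
    (P022D.W.phi_mem o.1 o.2.1 f) t.1) (inv_mem (pow_mem t.1 l))
  have : r (φ * τ * φ⁻¹ * (τ ^ l)⁻¹) = 1 := sub_eq_zero.1 (zero_of fun k a b => by
    obtain ⟨_, _, _, _, -, -, h1⟩ := P022K.CH.Loc.chi_data (K0 r k) (lc k) o
    obtain ⟨n, e⟩ := h1 φ f τ t.1
    have := mem_K0.1 e a b
    rwa [map_pow, ← add_sub_cancel 1 (r _), uni_pow (z _ _ m m), add_sub_cancel_left,
      Matrix.smul_apply, smul_eq_mul, Nat.cast_pow, ((odd_unit o.1 l2).pow n).dvd_mul_left] at this)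
  rw [← map_pow, ← map_mul, ← map_mul, show φ * τ = φ * τ * φ⁻¹ * (τ ^ l)⁻¹ * (τ ^ l * φ) by group,
    map_mul, this, one_mul]

end Vale.Agent.P014U.Pp.B0
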