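import Vale.Agent.P014U.Pp.Rn0
import Vale.Agent.P014U.Mu.Lmu
import Vale.Agent.P014U.Mu.Sec

/-! # P014U, block PATQ: towers without `μ`-invariant (helper86) -/

set_option linter.all false

open NumberField Matrix Filter PowerSeries Set

noncomputable section

namespace Vale.Agent.P014U.Pp

open Vale.Agent.P022 (Qb GQ IsConj)
open Vale.Agent.P004F.Pr (ac)
open X4F (La Rj cj mj)
open X4F.Pat (U Sy)
open Vale.Agent.P004F.Pat (U_ge)
open Mu (mq)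
open Pq (Zq)
open Dr (Zn aa)

variable [Pp]

/-- `(Q, u)` presents the framed cocycles of the tower at level `j` -/
def Tw.Pn {b : Bs} (t : Tw b) (j : ℕ) {r : ℕ} (Q : Matrix (Fin r) (Fin (r + 2)) (Rj (j + 1)))
    (u : GQ → Matrix (Fin 2) (Fin (r + 2)) (Rj (j + 1))) : Prop :=
  ∀ (M : Type) [AddCommGroup M] [Module (Rj (j + 1)) M],
    BijOn (fun (v : Fin (r + 2) → M) g => ac (u g) v) {v | ac Q v = 0}
      (Zq M (b.S ∪ t.T j) (t.a j) b.c)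

/-- the presentations have no `μ`-invariant -/
def Tw.Mz {b : Bs} (t : Tw b) : Prop := ∀ (r : ℕ)
  (Q : ∀ j, Matrix (Fin r) (Fin (r + 2)) (Rj (j + 1)))
  (u : ∀ j, GQ → Matrix (Fin 2) (Fin (r + 2)) (Rj (j + 1))), (∀ᶠ j in U, t.Pn j (Q j) (u j)) →
  ∃ C : Matrix (Fin 2) (Fin (r + 2)) La,
    map PadicInt.toZMod (Ba.st finSumFinEquiv.symm (Sy.succ.um Q) C).det ≠ 0

theorem Bs.eps_two (b : Bs) (g : GQ) : PadicInt.toZMod (b.ε g) = 1 := by rw [b.one, map_one]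

theorem Bs.rep (b : Bs) {S : Finset ℕ} (le : b.S ⊆ S) (pr : ∀ p ∈ S, p.Prime) : Mu.Rep b.r S :=
  ⟨b.lc, b.det, le b.two, pr, fun l P i o n k => (b.unr l P i o (fun m => n (le m)) k).1, b.big⟩

theorem tq_mono {S S' : Finset ℕ} {n c : ℕ} {e : GQ → ZMod (pp ^ n)} (le : S ⊆ S')
    (h : Mu.Tq S' n c e) : Mu.Tq S n c e :=
  ⟨h.add, h.ker, h.cj, h.sq, h.one, fun q a d => ⟨(h.cy q a d).1, fun m => (h.cy q a d).2 (le m)⟩,
    h.ram, fun p m => h.fro p (le m)⟩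

/-- **the towers** -/
theorem twx (H : Mu.MUQ) (b : Bs) {S : Finset ℕ} (le : b.S ⊆ S) (pr : ∀ p ∈ S, p.Prime)
    (F : ℕ → Finset ℕ) (N₀ : ℕ → ℕ) : ∃ t : Tw b, (∀ j, N₀ j ≤ t.N j) ∧
      (∀ j, Mu.Tq S (2 * j + 4) (t.c j) (t.e j)) ∧ (∀ j, (t.T j).card ≤ t.m) ∧
      (∀ j, ∀ l ∈ t.T j, l ∉ F j ∧ l ∉ S ∧ Mu.Gq b.r t.m (b.pl.σ l)) ∧ t.Mz := by
  obtain ⟨μ, C₀, z⟩ := Mu.muq3 H (b.rep le pr) b.pl b.cc
  choose k q e e' a1 a2 a3 a4 a5 a6 a7 a8 a9 using fun j => z (2 * j + 4) (F j) (by omega)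
  have n0 j := mul_ne_zero (a1 j).sq.ne_zero (a5 j).ne_zero
  have sub j := Nat.primeFactors_mono (dvd_mul_right (k j) (q j)) (n0 j)
  have nq j := (a4 j _ (Nat.mem_primeFactors.2 ⟨a5 j, dvd_mul_left _ _, n0 j⟩)).2.1
  have ι j : Nonempty (Zn (max (N₀ j) (j + 1)) →+* Rj (j + 1)) :=
    ex_io (pow_eq_zero_of_le (le_max_right _ _) Rg.two_mq)
  let t : Tw b := ⟨μ, k, q, e, e', _, fun j => (ι j).some, fun j => (cj _).toMonoidHom.comp b.ε *
      Rg.ch (x := mj _ (1 + X)) (by rw [map_add, map_one]; exact Rg.X_ord (by omega))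
        (a1 j).zero (a1 j).add, fun j => le_max_right _ _, fun j => tq_mono le (a1 j),
    fun j => (Finset.card_le_card (sub j)).trans (a3 j),
    fun j l w => by rw [b.one, one_smul]; exact (a4 j l (sub j w)).2.2, a2,
    fun j => ⟨a5 j, fun w => nq j (le w), a6 j⟩, a7, fun j g => rfl⟩
  refine ⟨t, fun j => le_max_left _ _, a1, a3, a4, fun r Q u hu => ?_⟩
  obtain ⟨j, ⟨b1, b2⟩, b3⟩ := ((hu.and (Mu.um_red Q (C₀ + 1))).and (U_ge C₀)).exists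
  obtain ⟨f, hf⟩ := Mu.ex_red (Nat.succ_le_succ b3)
  obtain ⟨c1, c2⟩ := a9 j (C₀ + 1)
  refine Mu.lmu0 (r := Mu.rb b.r) (χ := fun g => (e j g).val) (map PadicInt.toZMod) Mu.map_sur _ _ f
    (b2 f hf) (fun g => ?_) b1 ((Nat.card_mono c1 fun x h => ⟨h.co, h.opn, fun g ⟨l, a, e⟩ =>
      h.un g ⟨l, fun m => a (Finset.union_subset_union_left le m), e⟩, h.inf⟩).trans
      (by simpa using c2))
  have c : ∀ x, f (cj _ x) = mq _ (C (PadicInt.toZMod x)) := fun x => (hf _).trans (by rw [map_C])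
  rw [t.a_eq, t.hΨ, Matrix.map_smul' _ _ _ (map_mul _), map_mul, map_pow, c, b.eps_two, hf,
    map_one, map_one, one_mul, map_add (PowerSeries.map _), map_one, map_X, Mu.ag]
  exact congrArg _ (Matrix.ext fun x y => c _)

end Vale.Agent.P014U.Pp
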