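import Vale.Agent.P014U.Pp.Rn0
import Vale.Agent.P014U.Pp.Gl0

/-! # P014U, block PATQ (odd prime), row GL1: the group theory of the limit -/

set_option linter.all false

open NumberField Matrix Filter PowerSeries Submodule Set

noncomputable section

namespace Vale.Agent.P014U.Pp

variable [Pp]

open Vale.Agent.P022 (Qb GQ IsConj)
open Vale.Agent.P027M.S (Inert)
open Vale.Agent.P022E.GW (Ov)
open Vale.Agent.P014U.X4F.Pat (U Ae lm Im ul_const two_Im)
open Vale.Agent.P014U.X4S.Aq (cz)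
open Dr (Hm Zn aa am)
open Kq (M2 Un Rq)

namespace G1

theorem hom_eq {R : Type} [CommRing R] {m : ℕ} (h : (pp : R) ^ m = 0) (f g : ℤ_[pp] →+* R) : f = g :=
  RingHom.ext fun x => by
    obtain ⟨y, e⟩ := Ideal.mem_span_singleton.1 (PadicInt.appr_spec m x)
    rw [eq_add_of_sub_eq e]
    simp [h]

theorem comm_Hm (n : ℕ) (x g : GQ) : x * g * x⁻¹ * g⁻¹ ∈ Hm (pp ^ n) := by
  have := NeZero.mk (pow_ne_zero n pp_ne)
  obtain ⟨-, χ, -, -, h, -⟩ := P014T.Dr.ex_cy (pp ^ n)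
  rw [h, map_mul, map_mul, map_mul, map_inv, map_inv, mul_inv_cancel_comm, mul_inv_cancel]

variable {w : ℤ_[pp]} (n : Rn w) {j : ℕ}

theorem two_n : (pp : n.R j) ^ (j + 1) = 0 := n.two

theorem ps_i (y : Rq (-w) (-w)) : n.ψ (fun j => n.i j y) = y := by
  rw [n.lim fun _ => y, ul_const, ul_const]

theorem om_eq : (1 + QuadraticAlgebra.omega : Rq (-w) (-w)) ^ 2 -
    (2 - kq w w) * (1 + QuadraticAlgebra.omega) + 1 = 0 := by
  have : (QuadraticAlgebra.omega : Rq (-w) (-w)) * QuadraticAlgebra.omega =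
      -kq w w - kq w w * QuadraticAlgebra.omega := by ext1 <;> simp [kq]
  linear_combination this

variable {b : Bs} {t : Tw b} {k : ℕ} (p : Pe t k)

/-- the constants at level `j` -/
abbrev io (j : ℕ) : ℤ_[pp] →+* p.n.R j := (p.n.i j).comp (kq p.w)

theorem aa_eq (Φ : GQ →* p.n.R j) (g : GQ) :
    aa (b.ρ (t.N j)) (p.f j) Φ g = Φ g • (b.r g).map (io p j) := by
  rw [hom_eq (two_n p.n) (io p j) ((p.f j).comp (PadicInt.toZModPow _))]; rfl

theorem ps_zero {g : GQ} (h : t.e j g = 0) (h' : t.e' j g = 0) :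
    p.Ψ j g = io p j (b.ε g * (cz g : ℤ_[pp]) ^ p.M) := by
  rw [p.hΨ, h, h', ch, ZMod.val_zero, pow_zero, pow_zero, mul_one, mul_one]; rfl

theorem ps_one {g : GQ} (h : t.e j g = 0) (h' : t.e' j g = 1) (e : b.ε g = 1) (d : (b.r g).det = 1) :
    p.Ψ j g = p.n.i j (1 + QuadraticAlgebra.omega) := by
  have : Fact (1 < pp ^ (2 * j + 4)) := ⟨Nat.one_lt_pow (by omega) one_lt⟩
  rw [p.hΨ, h, h', e, ← b.det, d, ch, ZMod.val_zero, ZMod.val_one]
  simp

theorem side (Φ : ∀ j, GQ →* p.n.R j) {z : ℕ → GQ} (h1 : ∀ j, b.r (z j) = 1)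
    (h2 : ∀ h ∈ p.fr.H, ∀ᶠ j in U, aa (b.ρ (t.N j)) (p.f j) (Φ j) (h j) = 1)
    (h3 : ∀ j, Φ j (p.τ j) = Φ j (z j))
    (h4 : ∀ j, Φ j (z j) ^ 2 - (2 - io p j p.w) * Φ j (z j) + 1 = 0) (h5 : ∀ j, Φ j b.c = 1) :
    (lg p.n.ψ fun j => p.gl j (Φ j)).Ok p.fr.H p.τ fun _ => b.c := by
  obtain ⟨q, hq⟩ := b.cj
  have cm : ∀ j (Φ : GQ →* p.n.R j) g, am (b.ρ (t.N j)) (p.f j) Φ (z j * g * (z j)⁻¹ * g⁻¹) = 1 :=
    fun j Φ g => by
      have : z j * g * (z j)⁻¹ * g⁻¹ ∈ b.r.ker := by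
        rw [mul_assoc, mul_assoc, ← mul_assoc g]
        exact mul_mem (h1 j) (b.r.normal_ker.conj_mem _ (inv_mem (h1 j)) g)
      refine (aa_eq p _ _).trans ?_
      rw [this, map_mul, map_mul, map_mul, mul_right_comm (Φ _), ← map_mul, mul_inv_cancel, map_one,
        one_mul, ← map_mul, mul_inv_cancel, map_one, one_smul,
        Matrix.map_one _ (map_zero _) (map_one _)]
  refine ok (ι := io p) (ι' := kq p.w) (Ψ := Φ) (t := z) (ε := 1) p.n.ae (fun x => ps_i p.n _) b.spn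
    (fun g => congrArg (lm _) (funext fun j => aa_eq p _ _))
    (fun h m => (h2 h m).mono fun j e => (aa_eq p _ _).symm.trans e)
    (fun g => .of_forall fun j => ⟨cm j _ _, cm j _ _, comm_Hm _ _ _⟩)
    (.of_forall fun j => ⟨h1 j, (p.hτ j).1, h3 j⟩) p.w0 (fun e => ?_) p.du (by rw [p.hw]; ring)
    (.of_forall h4) (.of_forall fun j => ⟨rfl, (h5 j).trans (map_one _).symm⟩)
    (by rwa [one_smul]) (funext fun i => ps_i p.n _)
  have := p.w2
  rw [e, show (4 : ℤ_[pp]) = 2 * 2 by norm_num] at this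
  exact PadicInt.irreducible_p.not_isUnit (isUnit_of_dvd_unit this (unit_two.mul unit_two))

end G1

open G1 in
/-- **the row `GL1`** -/
theorem gl1 : GL1 := fun b t _ k p => by
  have o j := b.pl.ov _ (t.pq j).1
  choose z z1 z2 using fun j => (t.tq' j).ram _ _ (o j) dvd_rfl
  have u j := b.unr _ _ _ (o j) (t.pq j).2.1 (z1 j)
  have a j := ps_one p ((t.tq j).ine (o j) (t.pq j).2.2 (z1 j)) (z2 j) (u j).2 (by rw [(u j).1, det_one])
  have a' j := ps_one p (p.hτ j).2.2.1 (p.hτ j).2.2.2 (p.hτ j).2.1 (by rw [(p.hτ j).1, p.du])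
  have v j : p.Ψ j (z j) ^ 2 - (2 - io p j p.w) * p.Ψ j (z j) + 1 = 0 := by
    simpa only [a, map_add _ (_ - _), map_sub, map_mul, map_pow, map_one, map_ofNat, map_zero,
      RingHom.comp_apply] using
      congrArg (p.n.i j) (om_eq (w := p.w))
  have c j : p.Ψ j b.c = 1 := by
    obtain ⟨m, e⟩ := (Nat.Prime.even_sub_one pp_prime pp_ne_two).two_dvd.trans p.M1
    rw [ps_zero p ((t.tq j).cj _ b.cc) ((t.tq' j).cj _ b.cc), b.εc, e, pow_mul, sq, ← Units.val_mul,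
      ← map_mul, P004R.Mu.kk b.cc]
    simp
  have iv j {g h} (e : p.Ψ j g = p.Ψ j h) : p.Ψ' j g = p.Ψ' j h := by
    linear_combination p.Ψ' j h * p.inv j g - p.Ψ' j g * p.Ψ' j h * e - p.Ψ' j g * p.inv j h
  refine ⟨side p p.Ψ (fun j => (u j).1) (fun h m => m.mono fun j e => e.1)
      (fun j => (a' j).trans (a j).symm) v c,
    side p p.Ψ' (fun j => (u j).1) (fun h m => m.mono fun j e => e.2.1)
      (fun j => iv j ((a' j).trans (a j).symm)) (fun j => ?_)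
      fun j => (iv j ((c j).trans (map_one _).symm)).trans (map_one _),
    fun _ => p.g₀, fun _ => P022D.W.inP_le_dec p.ine, ?_⟩
  · linear_combination p.Ψ' j (z j) ^ 2 * v j + ((2 - io p j p.w) * p.Ψ' j (z j) -
      p.Ψ j (z j) * p.Ψ' j (z j) - 1) * p.inv j (z j)
  have n2 {S n c e} (t : Mu.Tq S n c e) : e p.g₀ = 0 := t.ine p.ov (fun d => by
    have := (t.cy pp pp_prime d).1
    rw [pow_succ'] at this
    have := congrArg (· % pp) this
    simp [Nat.mod_eq_of_lt one_lt] at this) p.ine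
  obtain ⟨y, hy⟩ : ∃ y : ℤ_[pp], (cz p.g₀ : ℤ_[pp]) ^ p.M * y = 1 := ((cz _).isUnit.pow _).exists_right_inv
  have e j : p.Ψ' j p.g₀ = io p j (b.ε p.g₀ * y) := by
    have h1 := p.inv j p.g₀
    have h2 := congrArg (io p j) hy
    have h3 := congrArg (io p j) (b.sq p.g₀)
    rw [ps_zero p (n2 (t.tq j)) (n2 (t.tq' j))] at h1
    simp only [map_mul, map_one, sq] at h1 h2 h3 ⊢
    linear_combination io p j (b.ε p.g₀) * io p j y * h1 - p.Ψ' j p.g₀ * h2 -
      p.Ψ' j p.g₀ * io p j ((cz p.g₀ : ℤ_[pp]) ^ p.M) * io p j y * h3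
  have : p.fr.G'.ρ (fun _ => p.g₀) - 1 = (kq p.w).mapMatrix ((b.ε p.g₀ * y) • b.r p.g₀ - 1) := by
    rw [map_sub, map_one, RingHom.mapMatrix_apply, Matrix.map_smul' _ _ _ (map_mul _), ← ps_i p.n (kq _ _)]
    exact congrArg (· - 1) ((congrArg (lm _) (funext fun j => G1.aa_eq p _ _)).trans ((lm_tw (ι := io p)
      p.n.ae (fun x => ps_i p.n _) (.of_forall fun _ => rfl)).trans (by simp only [e]; rfl)))
  rw [this, ← RingHom.map_det]
  refine un_map _ (un_int fun d => p.ne ?_)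
  rw [show b.ε p.g₀ • b.r p.g₀ - (cz p.g₀ : ℤ_[pp]) ^ p.M • 1 = (cz p.g₀ : ℤ_[pp]) ^ p.M •
    ((b.ε p.g₀ * y) • b.r p.g₀ - 1) by rw [smul_sub, smul_smul, mul_left_comm, hy, mul_one],
    det_smul, d, mul_zero]

end Vale.Agent.P014U.Pp
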