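import Vale.Agent.P014U.Pp.St
import Vale.Agent.P014U.Pp.G2a
import Vale.Agent.P014U.X4F.Lt.Grp
import Vale.Agent.P014U.Dr.Cy
import Vale.Agent.P004F.Pt.Pert

/-! # P014U, block PATQ (odd prime), row GL2: the local factors of the perturbed tower -/

set_option linter.all false

open NumberField Matrix Filter PowerSeries Sum nonZeroDivisors

noncomputable section

namespace Vale.Agent.P014U.Pp

open Vale.Agent.P022 (GQ)
open X4F (Nt La)
open X4F.Pat (U lm Im ul ul_const ul_spec two_Im X_Im lm_smul lm_sub lm_one mem_Im)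
open X4S.Aq (cz cy_in)
open Dr (aa)
open Kq (M2 F4 Rq)

variable [Pp]

namespace G2

theorem un_tau {S : Finset ℕ} {n c q : ℕ} {e : GQ → ZMod (pp ^ (n + 1))} {P : Ideal (𝓞 P022.Qb)}
    {τ : GQ} (t : Mu.Tq S (n + 1) c e) (o : P022E.GW.Ov q P) (l : q ≠ pp) (d : q ∣ c)
    (g : Gn q P τ) : ¬ pp ∣ (e τ).val := fun h => by
  obtain ⟨s, i, e1⟩ := t.ram q P o d
  obtain ⟨j, hj⟩ := X4F.Lt.lt1 o 1 l g i (Dr.Hm_open t.sq.ne_zero)
  let f := ZMod.castHom (dvd_pow_self pp n.succ_ne_zero) (ZMod pp)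
  have := hj _ (fun g => f (e g)) (fun a => by simp) (fun g _ m => by rw [t.ker g m, map_zero])
    fun g k _ _ => by rw [t.add, map_add]
  rw [e1, map_one, ← ZMod.natCast_zmod_val (e τ), map_natCast,
    (ZMod.natCast_eq_zero_iff _ _).2 h, smul_zero] at this
  exact one_ne_zero this

variable {w : ℤ_[pp]} (n : Rn w)

theorem cst (x : Rq (-w) (-w)) : n.ψ (fun j => n.i j x) = x := by
  rw [n.lim, ul_const, ul_const]

theorem alg (x : ℕ → La) :
    n.ψ (fun j => n.i j (algebraMap La _ (x j))) = algebraMap La _ (ul x) :=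
  (n.lim _).trans (QuadraticAlgebra.ext rfl (ul_const 0))

theorem alg0 {j : ℕ} {x : La} (h : x ∈ Im (j + 1)) : n.i j (algebraMap La _ x) = 0 :=
  (n.ker j _).2 ⟨h, zero_mem _⟩

theorem two0 (j : ℕ) : (pp : n.R j) ^ (j + 1) = 0 := by
  simpa using alg0 n (two_Im (j + 1))

theorem X0 (j : ℕ) : n.i j (algebraMap La _ X) ^ (j + 1) = 0 := by
  rw [← map_pow, ← map_pow]
  exact alg0 n (X_Im _)

theorem spec (y : ℕ → Rq (-w) (-w)) (k : ℕ) :
    ∀ᶠ j in U, (y j - n.ψ fun j => n.i j (y j)).re ∈ Im k := by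
  rw [n.lim]
  exact ul_spec _ k

theorem lm_cst (A : M2 ℤ_[pp]) :
    lm n.ψ (fun j => A.map ((n.i j).comp (kq w))) = A.map (kq w) := Matrix.ext fun _ _ => cst n _

theorem pi_kq (h : (pp : ℤ_[pp]) ∣ w) : (pi2 h).comp (kq w) = C.comp PadicInt.toZMod :=
  RingHom.ext fun x => map_C PadicInt.toZMod x

theorem pi_ch (h : (pp : ℤ_[pp]) ∣ w) {x : ℤ_[pp]} (hx : PadicInt.toZMod x = 1) (a a' : ℕ) :
    pi2 h (ch w x a a') = (1 + X) ^ a := by
  have a1 : pi2 h (kq w x) = 1 := (map_C PadicInt.toZMod x).trans (by rw [hx, map_one])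
  have a2 : pi2 h (algebraMap La _ (1 + X)) = 1 + X := by
    rw [map_add, map_add, map_one, map_one]
    exact congrArg _ (map_X (PadicInt.toZMod (p := pp)))
  have a3 : pi2 h QuadraticAlgebra.omega = 0 := map_zero (PowerSeries.map (PadicInt.toZMod (p := pp)))
  simp only [ch, map_mul, map_pow, a1, a2, map_add (pi2 h), map_one, a3, add_zero, one_pow, one_mul,
    mul_one]

theorem tc_ch (h : (pp : ℤ_[pp]) ∣ w) {x : ℕ → ℤ_[pp]} (hx : ∀ j, PadicInt.toZMod (x j) = 1)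
    {a : ℕ → ℕ} (a' : ℕ → ℕ) (ha : ∀ᶠ j in U, ¬ pp ^ 2 ∣ a j) :
    Tc (pi2 h (n.ψ fun j => n.i j (ch w (x j) (a j) (a' j)))) := by
  obtain ⟨j, b, c⟩ := (ha.and (spec n (fun j => ch w (x j) (a j) (a' j)) (pp + 1))).exists
  refine tc_of ?_ b
  rw [← pi_ch h (hx j) _ (a' j), ← map_sub]
  exact Im_X c

variable {h : (pp : ℤ_[pp]) ∣ w} {t : Rq (-w) (-w)}

theorem ev_nzd (T : Tc (pi2 h t)) {E : Polynomial ℤ_[pp]} (e : E.map PadicInt.toZMod ≠ 0) :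
    E.eval₂ (kq w) t ∈ (Rq (-w) (-w))⁰ :=
  nzd h (by rw [Polynomial.hom_eval₂, pi_kq, ← Polynomial.eval₂_map]; exact T.ev e)

theorem det_nzd (T : Tc (pi2 h t)) {A : M2 ℤ_[pp]} (hA : IsUnit A.det) (S : M2 ℤ_[pp]) :
    (t • A.map (kq w) - S.map (kq w)).det ∈ (Rq (-w) (-w))⁰ := by
  have := ev_nzd T (E := .monomial 2 A.det + .monomial 0 S.det -
    .monomial 1 (A 0 0 * S 1 1 + A 1 1 * S 0 0 - A 0 1 * S 1 0 - A 1 0 * S 0 1)) fun e =>
      (hA.map PadicInt.toZMod).ne_zero (by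
        simpa [Polynomial.coeff_monomial] using congrArg (Polynomial.coeff · 2) e)
  refine Eq.mp (congrArg (· ∈ _) ?_) this
  simp [Polynomial.eval₂_sub, Polynomial.eval₂_add, det_fin_two]
  ring

theorem sq_nzd (T : Tc (pi2 h t)) : (t - 1) ^ 2 ∈ (Rq (-w) (-w))⁰ :=
  pow_mem (nzd h (by rw [map_sub, map_one]; exact sub_ne_zero.2 T.1)) 2

theorem th_kq {m : ℕ} (h : (pp : ℤ_[pp]) ^ m ∣ w) (x : ℤ_[pp]) : th m h (kq w x) = PadicInt.toZModPow m x :=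
  congrArg (PadicInt.toZModPow m) (constantCoeff_C x)

theorem th_ch {m : ℕ} (h : (pp : ℤ_[pp]) ^ m ∣ w) (x : ℤ_[pp]) (a a' : ℕ) :
    th m h (ch w x a a') = PadicInt.toZModPow m x := by
  have a1 := th_kq h x
  have a2 : th m h (algebraMap La _ (1 + X)) = 1 := by
    show PadicInt.toZModPow m (constantCoeff (1 + X)) = _
    simp
  have a3 : th m h QuadraticAlgebra.omega = 0 := map_zero ((PadicInt.toZModPow m).comp constantCoeff)
  simp only [ch, map_mul, map_pow, a1, a2, map_add (th m h), map_one, a3, add_zero, one_pow, mul_one]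

theorem cz_pow {m M : ℕ} (h : (pp - 1) * pp ^ m ∣ M) (x : ℤ_[pp]ˣ) :
    PadicInt.toZModPow m ((x : ℤ_[pp]) ^ M) = 1 := by
  have b := dvd_iff.1 ((pow_dvd_pow _ m.le_succ).trans (cz_one h x))
  rwa [map_sub, map_one, sub_eq_zero] at b

variable {b : Bs} {t : Tw b} {k : ℕ} (p : Pe t k)

/-- the constants at level `j` -/
abbrev io (j : ℕ) : ℤ_[pp] →+* p.n.R j := (p.n.i j).comp (kq p.w)

theorem aa_eq (j : ℕ) (Φ : GQ →* p.n.R j) (g : GQ) :
    aa (b.ρ (t.N j)) (p.f j) Φ g = Φ g • (b.r g).map (io p j) := by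
  rw [hom_ext (two0 p.n j) (io p j) ((p.f j).comp (PadicInt.toZModPow _))]
  rfl

theorem dvd_w {m : ℕ} (h : m ≤ k) : ((pp : ℤ_[pp]) ^ 2) ^ m ∣ p.w := (pow_dvd_pow _ h).trans p.wk

theorem two_w {m : ℕ} (h : m ≤ k) : (pp : ℤ_[pp]) ^ m ∣ p.w :=
  (pow_dvd_pow_of_dvd (dvd_pow_self _ two_ne_zero) m).trans (dvd_w p h)

theorem w2 : (pp : ℤ_[pp]) ∣ p.w := by simpa using two_w p (m := 1) (by have := p.km; omega)

theorem cz_mod (g : GQ) : PadicInt.toZMod ((cz g : ℤ_[pp]) ^ p.M) = 1 := by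
  have b := tz ((dvd_pow_self _ k.succ_ne_zero).trans (cz_one p.Mk (cz g)))
  rwa [map_sub, map_one, sub_eq_zero] at b

theorem ez_mod (g : GQ) : PadicInt.toZMod (b.ε g * (cz g : ℤ_[pp]) ^ p.M) = 1 := by
  rw [b.one, one_mul, cz_mod]

/-- the values on the inertia group -/
theorem in_val {l j : ℕ} (hl : l.Prime) (l2 : l ≠ pp) (hq : l ≠ t.q j) :
    p.Ψ j (b.pl.τ l) = p.n.i j (kq p.w (b.ε (b.pl.τ l)) *
      algebraMap La _ ((1 + X) ^ (t.e j (b.pl.τ l)).val)) := by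
  have o := b.pl.ov l hl
  have g := (b.pl.gn l hl l2).1
  rw [p.hΨ, ch, (t.tq' j).ker _ (P004F.Pt.fx_in o g fun e =>
    hq ((Nat.prime_dvd_prime_iff_eq hl (t.pq j).1).1 e)),
    show (cz (b.pl.τ l) : ℤ_[pp]) = 1 from Subtype.ext (cy_in o l2 g), one_pow, mul_one,
    ZMod.val_zero, pow_zero, mul_one, map_pow (algebraMap La _)]

theorem bad_val (y : b.σ) (j : ℕ) : p.Ψ j (b.pl.τ y) = io p j (b.ε (b.pl.τ y)) ∧
    p.Ψ' j (b.pl.τ y) = io p j (b.ε (b.pl.τ y)) := by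
  obtain ⟨s, l2⟩ := b.sub y y.2
  have hl := b.pr y s
  have a : p.Ψ j (b.pl.τ y) = io p j (b.ε (b.pl.τ y)) := by
    rw [in_val p hl l2 fun e => (t.pq j).2.1 (e ▸ s), (t.tq j).ker _ (P004F.Pt.fx_in (b.pl.ov y hl)
      (b.pl.gn y hl l2).1 fun e => ((t.tq j).cy y hl e).2 s), ZMod.val_zero, pow_zero, map_one,
      mul_one]
    rfl
  have c := p.inv j (b.pl.τ y)
  have d := congrArg (io p j) (b.sq (b.pl.τ y))
  rw [a] at c
  rw [map_pow, map_one] at d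
  exact ⟨a, by linear_combination io p j (b.ε (b.pl.τ y)) * c - p.Ψ' j (b.pl.τ y) * d⟩

theorem rho_cst (Φ : ∀ j, GQ →* p.n.R j) (g : GQ) :
    lm p.n.ψ (fun j => aa (b.ρ (t.N j)) (p.f j) (Φ j) g) =
      p.n.ψ (fun j => Φ j g) • (b.r g).map (kq p.w) := by
  simp only [aa_eq]
  rw [lm_smul, lm_cst]

theorem N_inl (Φ : ∀ j, GQ →* p.n.R j) (y : b.σ)
    (h : ∀ j, Φ j (b.pl.τ y) = io p j (b.ε (b.pl.τ y))) :
    (lg p.n.ψ fun j => p.gl j (Φ j)).N (inl y) =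
      Nt (p.n.ψ (fun j => Φ j (b.pl.σ y)) • (b.r (b.pl.σ y)).map (kq p.w))
        ((b.ε (b.pl.τ y) • b.r (b.pl.τ y)).map (kq p.w)) y := by
  refine (lm_nt (fun j => aa (b.ρ (t.N j)) (p.f j) (Φ j) (b.pl.σ y))
    (fun j => aa (b.ρ (t.N j)) (p.f j) (Φ j) (b.pl.τ y)) y).trans ?_
  rw [rho_cst, rho_cst, funext h, show p.n.ψ (fun j => io p j _) = _ from cst p.n _,
    Matrix.map_smul' _ _ _ (map_mul _)]

theorem tc_bad (y : b.σ) {x : ℤ_[pp]} (hx : PadicInt.toZMod x = 1) : Tc (pi2 (w2 p) (p.n.ψ fun j =>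
    p.n.i j (ch p.w x (t.e j (b.pl.σ y)).val (t.e' j (b.pl.σ y)).val))) :=
  have s := (b.sub y y.2).1
  tc_ch p.n _ (fun _ => hx) _ (.of_forall fun j d =>
    (t.tq j).fro y s _ _ (b.pl.ov y (b.pr y s)) (b.pl.fb y (b.pr y s))
      (by first | exact d | exact (dvd_pow_self _ two_ne_zero).trans d))

theorem tc_psi (y : b.σ) : Tc (pi2 (w2 p) (p.n.ψ fun j => p.Ψ j (b.pl.σ y))) := by
  simp only [p.hΨ]
  exact tc_bad p y (ez_mod p _)

theorem tc_inv {g : ℕ → GQ} (T : Tc (pi2 (w2 p) (p.n.ψ fun j => p.Ψ j (g j)))) :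
    Tc (pi2 (w2 p) (p.n.ψ fun j => p.Ψ' j (g j))) :=
  T.inv (by
    rw [← map_mul, ← map_mul, ← map_one (pi2 (w2 p)), ← map_one p.n.ψ]
    exact congrArg _ (congrArg _ (funext fun j => p.inv j _)))

theorem un_det (g : GQ) : IsUnit (b.r g).det := b.det g ▸ (cz g).isUnit

/-- the facts at a prime of the tower -/
theorem twr (i : Fin p.d) : ∀ᶠ j in U, b.r (b.pl.τ (p.en j i)) = 1 ∧
    p.Ψ j (b.pl.τ (p.en j i)) =
      p.n.i j (algebraMap La _ ((1 + X) ^ (t.e j (b.pl.τ (p.en j i))).val)) ∧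
    ¬ pp ∣ (t.e j (b.pl.τ (p.en j i))).val ∧ p.en j i % pp ^ (2 * j + 4 + 1) = 1 ∧
    ¬ (pp : ℤ_[pp]) ^ t.m ∣ (b.ε (b.pl.σ (p.en j i)) • b.r (b.pl.σ (p.en j i)) - 1).det :=
  p.hen.mono fun j h => by
    have m := (h.2 _).2 ⟨i, rfl⟩
    have hl := Nat.prime_of_mem_primeFactors m
    have d := Nat.dvd_of_mem_primeFactors m
    obtain ⟨c1, c2⟩ := (t.tq j).cy _ hl d
    have l2 : p.en j i ≠ pp := fun e => c2 (e ▸ b.two)
    have o := b.pl.ov _ hl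
    have g := b.pl.gn _ hl l2
    obtain ⟨u1, u2⟩ := b.unr _ _ _ o c2 g.1
    refine ⟨u1, ?_, un_tau (t.tq j) o l2 d g, c1, t.gq j _ m⟩
    rw [in_val p hl l2 fun e => (t.pq j).2.2 (e ▸ d), u2, map_one, one_mul]

theorem N_inr (Φ : ∀ j, GQ →* p.n.R j) (i : Fin p.d)
    (h : ∀ᶠ j in U, p.n.i j (algebraMap La _ X) ∣ Φ j (b.pl.τ (p.en j i)) - 1) :
    (lg p.n.ψ fun j => p.gl j (Φ j)).ρ (fun j => b.pl.τ (p.en j i)) =
      p.n.ψ (fun j => Φ j (b.pl.τ (p.en j i))) • 1 ∧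
    (lg p.n.ψ fun j => p.gl j (Φ j)).N (inr i) =
      fromCols (1 - p.n.ψ (fun j => Φ j (b.pl.τ (p.en j i))) • 1)
        ((lg p.n.ψ fun j => p.gl j (Φ j)).ρ (fun j => b.pl.σ (p.en j i)) - 1) := by
  have a : ∀ᶠ j in U, aa (b.ρ (t.N j)) (p.f j) (Φ j) (b.pl.τ (p.en j i)) =
      Φ j (b.pl.τ (p.en j i)) • 1 := (twr p i).mono fun j e => by
    rw [aa_eq, e.1, Matrix.map_one _ (map_zero _) (map_one _)]
  refine ⟨(p.n.ae.lm a).trans (by rw [lm_smul, lm_one]), (p.n.ae.lm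
    (B := fun j => fromCols (1 - Φ j (b.pl.τ (p.en j i)) • 1)
      (aa (b.ρ (t.N j)) (p.f j) (Φ j) (b.pl.σ (p.en j i)) - 1))
    ((a.and (h.and (twr p i))).mono fun j e => ?_)).trans ?_⟩
  · refine Eq.trans ?_ (nt_sc _ (geom_per (geom_zero (two0 p.n j) (X0 p.n j) e.2.1 (by omega))
      e.2.2.2.2.2.1))
    rw [← e.1]
    rfl
  · rw [P014T.Pp.Lv.lm_cols, lm_sub, lm_sub, lm_smul, lm_one]
    rfl

theorem X_psi (i : Fin p.d) :
    ∀ᶠ j in U, p.n.i j (algebraMap La _ X) ∣ p.Ψ j (b.pl.τ (p.en j i)) - 1 :=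
  (twr p i).mono fun j e => by
    have := map_dvd ((p.n.i j).comp (algebraMap La _)) (X_dvd_iff.2 (by simp) :
      (X : La) ∣ (1 + X) ^ (t.e j (b.pl.τ (p.en j i))).val - 1)
    rw [map_sub, map_one] at this
    exact e.2.1 ▸ this

theorem X_psi' (i : Fin p.d) :
    ∀ᶠ j in U, p.n.i j (algebraMap La _ X) ∣ p.Ψ' j (b.pl.τ (p.en j i)) - 1 :=
  (X_psi p i).mono fun j e => e.trans ⟨-p.Ψ' j (b.pl.τ (p.en j i)), by
    linear_combination p.inv j (b.pl.τ (p.en j i))⟩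

theorem tc_twr (i : Fin p.d) : Tc (pi2 (w2 p) (p.n.ψ fun j => p.Ψ j (b.pl.τ (p.en j i)))) := by
  simp only [p.hΨ]
  exact tc_ch p.n _ (fun _ => ez_mod p _) _ ((twr p i).mono fun j e d =>
    e.2.2.1 ((dvd_pow_self _ two_ne_zero).trans d))

theorem PN_inr (i : Fin p.d) : ∃ e : ℕ, (pp : Rq (-p.w) (-p.w)) ^ e ∈ I2 (p.fr.G.N (inr i)) := by
  have km : t.m ≤ k := by have := p.km; omega
  rw [show p.fr.G.N (inr i) = _ from (N_inr p p.Ψ i (X_psi p i)).2]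
  obtain ⟨v, hv, ev⟩ := odd_lim ((twr p i).mono fun j e => e.2.2.1)
  refine two_mem (two_w p km) (dvd_w p km) (d := (p.fr.G.ρ (fun j => b.pl.σ (p.en j i)) - 1).det)
    (Eq.mp (congrArg (· ∈ _) (det_r _ _)) (mem_I2 _ _)) (fun z => ?_)
    (Ideal.mem_of_dvd _ ?_ (Eq.mp (congrArg (· ∈ _) (det_l _ _)) (mem_I2 _ _)))
  · let y : ℕ → Rq (-p.w) (-p.w) := fun j => (ch p.w (b.ε (b.pl.σ (p.en j i)) *
      (cz (b.pl.σ (p.en j i)) : ℤ_[pp]) ^ p.M) (t.e j (b.pl.σ (p.en j i))).val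
      (t.e' j (b.pl.σ (p.en j i))).val • (b.r (b.pl.σ (p.en j i))).map (kq p.w) - 1).det
    have a : (p.fr.G.ρ (fun j => b.pl.σ (p.en j i)) - 1).det = p.n.ψ fun j => p.n.i j (y j) := by
      show (lm p.n.ψ (fun j => aa (b.ρ (t.N j)) (p.f j) (p.Ψ j) (b.pl.σ (p.en j i))) - 1).det = _
      rw [← lm_one (ψ := p.n.ψ), ← lm_sub, P004F.Pat.lm_det]
      refine congrArg _ (funext fun j => ?_)
      rw [aa_eq, p.hΨ, RingHom.map_det, map_sub, map_one, RingHom.mapMatrix_apply,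
        Matrix.map_smul' _ _ _ (map_mul _)]
      rfl
    obtain ⟨j, c, d⟩ := ((twr p i).and (spec p.n y (t.m + 1))).exists
    have f : th t.m (two_w p km) (y j - p.n.ψ fun j => p.n.i j (y j)) = 0 :=
      dvd_iff.1 ((pow_dvd_pow _ t.m.le_succ).trans
        (coeff_zero_eq_constantCoeff_apply (R := ℤ_[pp]) _ ▸ mem_Im.1 d 0 t.m.succ_pos))
    rw [map_sub, ← a, z, sub_zero, RingHom.map_det, map_sub, map_one, RingHom.mapMatrix_apply,
      Matrix.map_smul' _ _ _ (map_mul _), th_ch, map_mul,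
      cz_pow ((mul_dvd_mul_left _ (pow_dvd_pow _ km)).trans p.Mk), mul_one] at f
    refine c.2.2.2.2 (dvd_iff.2 ?_)
    rw [RingHom.map_det, map_sub, map_one, RingHom.mapMatrix_apply,
      Matrix.map_smul' _ _ _ (map_mul _), ← f, Matrix.map_map,
      show _ ∘ _ = _ from funext (th_kq _)]
  · rw [det_sc', p.n.ae _ _ ((twr p i).mono fun j e => e.2.1), alg, eq_add_of_sub_eq ev, map_add,
      map_one, add_sub_cancel_right, map_mul, mul_pow, ((hv.map _).pow 2).mul_right_dvd, map_pow]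

theorem PN_inl (y : b.σ) : ∃ e : ℕ, (pp : Rq (-p.w) (-p.w)) ^ e * p.P (inl y) ∈ I2 (p.fr.G.N (inl y)) := by
  obtain ⟨e, h⟩ := b.eul y y.2
  have a := I2_map (Polynomial.eval₂RingHom (kq p.w) (p.n.ψ fun j => p.n.i j (ch p.w
    ((cz (b.pl.σ y) : ℤ_[pp]) ^ p.M) (t.e j (b.pl.σ y)).val (t.e' j (b.pl.σ y)).val))) h
  rw [map_mul, map_pow, map_natCast, nt_map] at a
  refine ⟨e, ?_⟩
  rw [show p.fr.G.N (inl y) = _ from N_inl p p.Ψ y fun j => (bad_val p y j).1]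
  have c : (p.n.ψ fun j => p.Ψ j (b.pl.σ y)) = (p.n.ψ fun j => p.n.i j (ch p.w
      ((cz (b.pl.σ y) : ℤ_[pp]) ^ p.M) (t.e j (b.pl.σ y)).val (t.e' j (b.pl.σ y)).val)) *
      kq p.w (b.ε (b.pl.σ y)) := by
    rw [← cst p.n (kq _ _), ← map_mul]
    refine congrArg _ (funext fun j => ?_)
    simp only [p.hΨ, ch, Pi.mul_apply, map_mul]
    ring
  rw [c]
  refine Eq.mp (congrArg (fun N => _ ∈ I2 N) (congrArg₂ (fun A V => Nt A V y) ?_ ?_)) a
  · exact Matrix.ext fun r s => by simp [mul_assoc]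
  · exact Matrix.ext fun r s => by simp

end G2

open G2 in
theorem gl2 : GL2 := fun b t _ k p =>
  { P0 := fun y => by
      rcases y with y | i
      · exact ev_nzd (tc_bad p y (cz_mod p _)) (b.e0 y y.2)
      · exact one_mem _
    PN := fun y => by
      rcases y with y | i
      · exact PN_inl p y
      · exact (PN_inr p i).imp fun e h => Ideal.mul_mem_right _ _ h
    N0 := fun y => by
      rcases y with y | i
      · refine ⟨fromRows (0 : M2 _) (1 : M2 _), ?_⟩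
        rw [show p.fr.G'.N (inl y) = _ from N_inl p p.Ψ' y fun j => (bad_val p y j).2, Nt, det_r]
        simp only [← RingHom.mapMatrix_apply (kq p.w) (_ • _), ← map_pow, ← map_sum]
        exact det_nzd (tc_inv p (tc_psi p y)) (un_det _) _
      · refine ⟨fromRows (1 : M2 _) (0 : M2 _), ?_⟩
        rw [show p.fr.G'.N (inr i) = _ from (N_inr p p.Ψ' i (X_psi' p i)).2, det_l, det_sc']
        exact sq_nzd (tc_inv p (tc_twr p i))
    cb := fun y => by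
      rcases y with y | i
      · refine ⟨fromCols (1 : M2 _) (0 : M2 _), ?_⟩
        rw [det_u, show p.fr.G.ρ (fun j => (p.fr.q j).φ (inl y)) = _ from rho_cst p p.Ψ (b.pl.σ y),
          ← Matrix.map_one _ (map_zero (kq p.w)) (map_one _)]
        exact det_nzd (tc_psi p y) (un_det _) _
      · refine ⟨fromCols (0 : M2 _) (1 : M2 _), ?_⟩
        rw [det_d, show p.fr.G.ρ (fun j => (p.fr.q j).t (inr i)) = _ from
          (N_inr p p.Ψ i (X_psi p i)).1, det_sc]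
        exact sq_nzd (tc_twr p i) }

end Vale.Agent.P014U.Pp
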