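import Vale.Agent.P014T.Pp.Recq
import Vale.Agent.P014U.Gn
import Vale.Agent.P014U.X4F.Rec.St

/-! # P014U, block PATQ: reciprocity at tame places, the words -/

set_option linter.all false

noncomputable section

namespace Vale.Agent.P014U.Pp

export Vale.Agent.P014T.Pp (Df)

variable [Pp]

open NumberField Finset
open Vale.Agent.P022
open Vale.Agent.P022D.W (dec)
open Vale.Agent.P022.H443 (inP)
open Vale.Agent.P022E.GW (Ov Fb)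
open Vale.Agent.P014U.X4F.Rc (Cy Co Tv Ur)

/-- inertia acts through a group of order a power of `pp` -/
def Pw {M : Type} [AddCommGroup M] (P : Ideal (𝓞 Qb)) (ρ : GQ → M →+ M) : Prop :=
  ∀ i ∈ inP P, ∃ n : ℕ, ∀ x, ρ (i ^ pp ^ n) x = x

/-- **reciprocity over the rational field** -/
def RECQ : Prop := ∀ N : ℕ, ∃ w : ℕ → GQ → ℕ,
  (∀ l P τ, Ov l P → l ≠ pp → Gn l P τ → ¬ pp ∣ w l τ) ∧
  ∀ (A M M' : Type) [AddCommGroup A] [AddCommGroup M] [AddCommGroup M']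
    (B : M →+ M' →+ A) (ρ : GQ → M →+ M) (σ : GQ → M' →+ M') (a : GQ → M) (b : GQ → M')
    (L : Finset ℕ) (P : ℕ → Ideal (𝓞 Qb)) (φ τ : ℕ → GQ) (c : GQ),
    (∀ x : A, pp ^ N • x = 0) → Co ⊤ ρ a → Co ⊤ σ b →
    (∀ g k, Cy N g k → ∀ x y, B (ρ g x) (σ g y) = k • B x y) →
    IsConj c → a c = 0 ∨ b c = 0 →
    (∀ l ∈ L, Ov l (P l) ∧ l ≠ pp ∧ Fb l (P l) (φ l) ∧ Gn l (P l) (τ l) ∧ Pw (P l) ρ) →
    (∀ p : ℕ, p.Prime → p ∉ L → ∃ Q, Ov p Q ∧ (Tv (dec Q) ρ a ∨ Tv (dec Q) σ b ∨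
      (p ≠ pp ∧ Ur (inP Q) ρ a ∧ Ur (inP Q) σ b))) →
    ∑ l ∈ L, w l (τ l) • Df l (φ l) (τ l) (fun g h => B (a g) (σ g (b h))) = 0

end Vale.Agent.P014U.Pp
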