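import Vale.Agent.P014T.Pp.Isl
import Vale.Agent.P014U.Pp.Rq0
import Vale.Agent.P014U.Pq.Ext
import Vale.Agent.P014U.Pp.St
import Vale.Agent.P014U.X4F.Ra.Ra
import Vale.Agent.P014U.X4F.Rec.Kum

/-! # P014U, block PATQ: reciprocity for the universal classes as an identity of matrices -/

set_option linter.all false

open NumberField Matrix Submodule Set Sum
open scoped Classical

noncomputable section

namespace Vale.Agent.P014U.Pp

open Vale.Agent.P022 Vale.Agent.P022K Vale.Agent.P022K.G2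
open Vale.Agent.P027M.S (Inert)
open Vale.Agent.P022D.W (dec)
open Vale.Agent.P022E.GW (Ov Fb)
open Vale.Agent.P004F (Nt)
open Vale.Agent.P004F.Pr (ac mul_ac ac_zero one_ac ac_add add_ac ac_smul zero_ac)
open Vale.Agent.P004F.Ra (aH)
open X4F.Rc (Cy Co Tv Ur)
open Kq (M2 F4 Gl Pk)
open Pq (Ps Lu Gd Zq Tm)

namespace Is

export Vale.Agent.P014T.Pp.Is (BJ Cb n_cb j_pow btl bt_kol bj bj_eq bj_r bj_t bj_l bH bj_bl co_pow
  df_bt co_of zq_smul bj_s tv_of Vt ex_b kol mk_eq)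

end Is

variable [Pp] {R : Type} [CommRing R]

namespace Is

/-- `J` is a pairing with values in the roots of unity -/
def Du (N : ℕ) (a a' : GQ → M2 R) (J : M2 R) : Prop :=
  ∀ g k, Cy N g k → (a g)ᵀ * J * a' g = (k : R) • J

variable {σ ι β β' : Type} [Fintype σ] [Fintype ι] {γ γ' : Gl R GQ σ} {τ c : GQ} {T : Finset ℕ}
  {D : β → Subgroup GQ} {D' : β' → Subgroup GQ} {q : Ps (σ ⊕ ι)} {p p' : Pk R GQ σ ι}
  {m : β → Matrix (Fin 2) (Fin p.g) R} {m' : β' → Matrix (Fin 2) (Fin p'.g) R} {J : M2 R} {N : ℕ}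
  {a a' : GQ →* M2 R} {l : ℕ} {P : Ideal (𝓞 Qb)} {φ t : GQ}

theorem Du.fb (d : Du N a a' J) (h : Tm a l P φ t) : (a φ)ᵀ * J * a' φ = (l : R) • J :=
  d _ _ (X4F.Rc.cy_iff.2 (X4F.Rc.cy_fb h.ov h.ne h.fb N))

theorem Du.gn (d : Du N a a' J) (h : Tm a l P φ t) : (a t)ᵀ * J * a' t = J :=
  (d _ 1 (X4F.Rc.cy_iff.2 (by
    rw [X4S.Aq.cy_in h.ov h.ne h.gn.1, Nat.cast_one, sub_self, mul_zero]
    exact zero_mem _))).trans (by rw [Nat.cast_one, one_smul])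

/-- **BTL** at a tame place -/
theorem Du.btl (d : Du N a a' J) (h : Tm a l P φ t) :
    (Cb (a φ) (a t))ᵀ * BJ J (a' φ) (a t) (a' t) l = -J * Nt (a' φ) (a' t) l :=
  Is.btl (d.fb h) (d.gn h)

/-- the tame relation -/
theorem rel (G : Gd ⊤ T a) (h : Tm a l P φ t) : a φ * a t = a t ^ l * a φ := by
  obtain ⟨W, o, w⟩ := G.lc
  obtain ⟨V, hV, le⟩ := ex_lv' o
  have := hV.nrm
  obtain ⟨k, _, _, χ, -, -, h1⟩ := CH.Loc.chi_data V hV.opn h.ov
  obtain ⟨n, e⟩ := h1 φ h.fb t h.gn.1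
  obtain ⟨r, e'⟩ := h.ord _ (mul_mem (P022D.W.conj_inP (P022D.W.phi_mem h.ov.1 h.ov.2.1 h.fb) h.gn.1)
    (inv_mem (pow_mem h.gn.1 l)))
  have := (pow_eq_one_iff_of_coprime (((Nat.coprime_primes h.ov.1 pp_prime).2 h.ne).pow n r)).1
    ⟨(map_pow a _ _).symm.trans (w _ trivial (le e)), e'⟩
  rw [← map_pow, ← map_mul, ← map_mul, show φ * t = φ * t * φ⁻¹ * (t ^ l)⁻¹ * (t ^ l * φ) by group,
    map_mul, this, one_mul]

theorem ec_eq {g : GQ} {k : ℕ} (h : Cy N g k) : ec N g = k := by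
  obtain ⟨ζ, z⟩ := X4S.Aq.ex_prim N
  have := (isOfFinOrder_iff_pow_eq_one.2 ⟨_, X4S.Aq.pw_pos N, z.pow_eq_one⟩).pow_eq_pow_iff_modEq.1
    ((X4S.Aq.cz_spec g z.pow_eq_one).symm.trans (h ζ z.pow_eq_one))
  rw [← z.eq_orderOf, ← ZMod.natCast_eq_natCast_iff, ZMod.natCast_zmod_val] at this
  exact this

theorem sum_zero (h0 : (pp : R) ^ N = 0) (h : l % pp ^ (N + 2) = 1) :
    ((∑ i ∈ Finset.range l, i : ℕ) : R) = 0 := by
  have e := Finset.sum_range_id_mul_two l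
  obtain ⟨k, hk⟩ : ∃ k, l = pp ^ (N + 2) * k + 1 := ⟨_, (h ▸ Nat.div_add_mod l _).symm⟩
  obtain ⟨s, hs⟩ : pp ^ N ∣ ∑ i ∈ Finset.range l, i := (cop_two_pow N).symm.dvd_of_dvd_mul_right
    ⟨l * (pp ^ 2 * k), by rw [e, hk, Nat.add_sub_cancel]; ring⟩
  rw [hs, Nat.cast_mul, Nat.cast_pow, h0, zero_mul]

/-- reciprocity for all bilinear maps -/
theorem core (recq : RECQ) (N : ℕ) : ∃ w : ℕ → GQ → ℕ, (∀ l P τ, Ov l P → l ≠ pp → Gn l P τ → ¬ pp ∣ w l τ) ∧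
    ∀ (R M M' E κ : Type) [CommRing R] [AddCommGroup M] [Module R M] [AddCommGroup M'] [Module R M']
      [AddCommGroup E] [Module R E] [Fintype κ] (b : M →ₗ[R] M' →ₗ[R] E) (a a' : GQ →* M2 R)
      (J : M2 R) (T : Finset ℕ) (c : GQ) (q : Ps κ) x y, (pp : R) ^ N = 0 → Du N a a' J → IsConj c →
      Gd ⊤ T a → Gd ⊤ T a' → (∀ i, Tm a (q.l i) (q.P i) (q.φ i) (q.t i)) →
      Function.Injective q.l → x ∈ Zq M T a c → y ∈ Zq M' T a' c →
      (∀ l, l ∈ T ∨ l = pp → (∀ i, q.l i ≠ l) → ∃ Q, Ov l Q ∧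
        ((∃ m, ∀ g ∈ dec Q, x g = ac (a g - 1) m) ∨
        ∃ m, ∀ g ∈ dec Q, y g = ac (a' g - 1) m)) →
      ∑ i, w (q.l i) (q.t i) • bj b (Sum.elim (x (q.φ i)) (x (q.t i)))
        (Sum.elim (y (q.φ i)) (y (q.t i))) (BJ J (a' (q.φ i)) (a (q.t i)) (a' (q.t i)) (q.l i)) = 0 := by
  obtain ⟨w, hw, H⟩ := recq N
  refine ⟨w, hw, fun R M M' E κ _ _ _ _ _ _ _ _ b a a' J T c q x y h0 d hc G G' o inj X Y vn => ?_⟩
  have k := H _ _ _ (bH b J) _ _ _ _ (Finset.univ.image q.l) (Function.extend q.l q.P 0)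
    (Function.extend q.l q.φ 1) (Function.extend q.l q.t 1) c (X4F.Ra.two_smul_zero h0)
    (co_of G X) (co_of G' Y) (fun g k e x y => by
      show bj b (ac _ x) (ac _ y) J = k • bj b x y J
      rw [bj_l, bj_r, d g k e, map_smul, Nat.cast_smul_eq_nsmul])
    hc (.inl X.2.2.2) (fun l hl => by
      obtain ⟨x, -, rfl⟩ := Finset.mem_image.1 hl
      simp only [inj.extend_apply]
      have := o x
      exact ⟨this.ov, this.ne, this.fb, this.gn, fun i m => (this.ord i m).imp fun n e =>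
        P004F.Ra.aH_one ((map_pow _ _ _).trans e)⟩)
    (fun l hl n => by
      by_cases t : l ∈ T ∨ l = pp
      · obtain ⟨Q, oq, ⟨_, e⟩ | ⟨_, e⟩⟩ := vn l t fun x e =>
          n (Finset.mem_image.2 ⟨x, Finset.mem_univ _, e⟩)
        exacts [⟨Q, oq, .inl (tv_of e)⟩, ⟨Q, oq, .inr (.inl (tv_of e))⟩]
      · obtain ⟨Q, oq⟩ := GW.Pl.ex_ov hl
        have u : ∀ g ∈ P022.H443.inP Q, g ∈ In T := fun g hg => ⟨l, fun m => t (.inl m), Q, oq, hg⟩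
        exact ⟨Q, oq, .inr (.inr ⟨fun e => t (.inr e), fun g hg =>
          ⟨P004F.Ra.aH_one (G.unr g trivial (u g hg)), X.2.2.1 g (u g hg)⟩, fun g hg =>
          ⟨P004F.Ra.aH_one (G'.unr g trivial (u g hg)), Y.2.2.1 g (u g hg)⟩⟩)⟩)
  rw [Finset.sum_image fun x _ y _ e => inj e] at k
  simpa only [inj.extend_apply, df_bt b _ X.1] using k

theorem fix (x : ι) : ac (γ.ρ τ) (fun i => (p.Rl γ τ).mkQ (p.S x i)) =
    fun i => (p.Rl γ τ).mkQ (p.S x i) :=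
  (funext (P004F.Pa.ac_mk _ _ _)).trans (mk_eq fun i => by
    have : ((γ.ρ τ - 1) * p.S x : Matrix _ _ R) i ∈ p.Rl γ τ := subset_span ⟨inr (inr x, i), rfl⟩
    rw [Matrix.sub_mul, Matrix.one_mul] at this
    exact (neg_sub _ _).subst (motive := (· ∈ _)) (neg_mem this))

theorem el (h : Lu γ τ T c D q p m) (y : σ) :
    Sum.elim (fun i => (p.Rl γ τ).mkQ (p.u (q.φ (inl y)) i))
      (fun i => (p.Rl γ τ).mkQ (p.u (q.t (inl y)) i)) = fun i => (p.Rl γ τ).mkQ (p.l y i) :=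
  Eq.trans (funext fun i => i.rec (fun _ => rfl) fun _ => rfl) (mk_eq (h.hl y))

end Is

open Is

/-- **BTL** -/
theorem btl : BTL := fun _ _ _ _ _ _ _ _ _ G h h1 h2 => ⟨n_cb (rel G h), Is.btl h1 h2⟩

/-- **ISL** -/
theorem isl' (hr : RECQ) : ISL := fun N => by
  obtain ⟨w, hw, H⟩ := core hr N
  refine ⟨w, hw, fun R _ f σ ι _ _ γ γ' τ c T P q p p' m' η G G' hc o2 o o' kl d h h' vn => ?_⟩
  have h0 : (pp : R) ^ N = 0 := by
    rw [← Nat.cast_pow, ← map_natCast f, ZMod.natCast_self, map_zero]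
  obtain ⟨b, hb⟩ := ex_b (p.Rm γ τ) (p'.Rm γ' τ)
  obtain ⟨X, -⟩ := h.un le_rfl
  obtain ⟨Y, Y'⟩ := h'.un le_rfl
  have k := H _ _ _ _ _ b _ _ (Jm R) T c q _ _ h0 (fun g k e => by rw [d, ec_eq e, map_natCast])
    hc G G' o.tm o.inj (zq_smul X η) Y fun l t n => by
      by_cases e : l = pp
      · exact ⟨P, e ▸ o2, .inr ⟨_, Y' ()⟩⟩
      · exact (vn l (t.resolve_right e) e n).imp fun Q e => ⟨e.1, .inl (e.2 _ _ _ _ X)⟩
  rw [Fintype.sum_sum_type, add_comm] at k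
  dsimp only at k
  refine (Quotient.mk_eq_zero (Vt (p.Rm γ τ) (p'.Rm γ' τ))).1 (Eq.trans ?_ k)
  rw [← mkQ_apply, map_add, map_sum, map_smul, map_sum, Finset.smul_sum]
  refine congrArg₂ (· + ·) (Finset.sum_congr rfl fun x _ => ?_) (Finset.sum_congr rfl fun y _ => ?_)
  · rw [o.kt x _ (o.tm _).gn.1, o'.kt x _ (o.tm _).gn.1, bt_kol (o.kl x) (sum_zero h0 (kl x)),
      mk_eq (h.hF x), mk_eq (h.hS x), mk_eq (h'.hF x), mk_eq (h'.hS x), o'.kφ, map_add, map_smul,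
      map_smul, ← hb, ← hb]
    exact (kol b _ _ _ _ (fix x) η _).symm
  · rw [← hb, map_smul, smul_comm η, Nat.cast_smul_eq_nsmul, ← bj_s]
    refine congrArg₂ (fun u v => _ • bj b u v _)
      ((congrArg (η • ·) (el h y).symm).trans (funext ?_)) (el h' y).symm
    rintro (i | i) <;> rfl

end Vale.Agent.P014U.Pp
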