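import Vale.Agent.P014U.Pp.St

/-! # P014U, block PATQ: the algebra of the limit -/

set_option linter.all false

open NumberField Matrix Filter

noncomputable section

namespace Vale.Agent.P014U.Pp

variable [Pp]

open Vale.Agent.P022 (Qb GQ)
open Vale.Agent.P014U.X4F.Pat (U Ae lm lm_mul lm_tr lm_rows lm_sub lm_one lm_zero lm_smul lm_neg)
open Dr (Hm Zn)

namespace Lcb

theorem ec_eq {N k : ℕ} {g : GQ} (h : ∀ z : Qb, z ^ pp ^ N = 1 → g z = z ^ k) : ec N g = k := by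
  obtain ⟨ζ, h1⟩ := HasEnoughRootsOfUnity.exists_primitiveRoot Qb (pp ^ N)
  have e := (X4S.Aq.cz_spec g h1.pow_eq_one).symm.trans (h ζ h1.pow_eq_one)
  rw [pow_eq_pow_mod k h1.pow_eq_one, ← ZMod.val_natCast] at e
  exact ZMod.val_injective _ (h1.pow_inj (ZMod.val_lt _) (ZMod.val_lt _) e)

theorem ec_hm {N : ℕ} {g : GQ} (h : g ∈ Hm (pp ^ N)) : ec N g = 1 :=
  (ec_eq (k := 1) fun z e => (h z e).trans (pow_one z).symm).trans Nat.cast_one

theorem lm_J {R : ℕ → Type} [∀ j, CommRing (R j)] {O : Type} [CommRing O] (ψ : (∀ j, R j) →+* O) :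
    lm ψ (fun j => Jm (R j)) = Jm O := by
  ext a b
  fin_cases a <;> fin_cases b
  · exact ψ.map_zero
  · exact ψ.map_one
  · exact (ψ.map_neg 1).trans (congrArg _ ψ.map_one)
  · exact ψ.map_zero

end Lcb

open Lcb

theorem lcb (hb : BTL) : LCB := fun w O _ s => by
  refine ⟨⟨fun h m g => Eventually.mono m fun j e => ⟨?_, ?_, (Dr.Hm_normal _).conj_mem _ e.2.2 _⟩⟩,
    ?_, fun y => ?_⟩
  · rw [Pi.mul_apply, Pi.mul_apply, map_mul, map_mul, e.1, mul_one, ← map_mul, Pi.inv_apply,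
      mul_inv_cancel, map_one]
  · rw [Pi.mul_apply, Pi.mul_apply, map_mul, map_mul, e.2.1, mul_one, ← map_mul, Pi.inv_apply,
      mul_inv_cancel, map_one]
  · rw [← lm_J s.ψ]
    refine (congrArg₂ (· * ·) (lm_mul _ _) rfl).symm.trans ((lm_mul _ _).symm.trans
      (s.ae.lm (s.gs.lv.mono fun j v => ?_)))
    refine (v.dual (s.τ j)).trans ?_
    rw [ec_hm (Dr.Hm_le (pow_dvd_pow pp (Nat.le_add_right _ 2)) v.hτ), map_one, one_smul]
  obtain ⟨D, hD⟩ := s.g2.cb y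
  have k := s.gs.lv.mono fun j v => hb _ _ (s.γ' j).ρ _ _ _ _ _ v.gd (v.tm y)
    (by rw [v.dual, ec_eq fun z => Dr.root_cong (v.tm y).ov (Dr.nd_two (v.tm y).ov (v.tm y).ne _)
      (v.tm y).fb, map_natCast])
    (by rw [v.dual, ec_hm (Dr.inert_Hm (v.tm y).ov (Dr.nd_two (v.tm y).ov (v.tm y).ne _)
      (v.tm y).gn.1), map_one, one_smul])
  have e : fromRows (s.G.ρ (fun j => (s.q j).φ y) - 1) (s.G.ρ (fun j => (s.q j).t y) - 1) =
      lm s.ψ fun j => fromRows ((s.γ j).ρ ((s.q j).φ y) - 1) ((s.γ j).ρ ((s.q j).t y) - 1) := by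
    rw [lm_rows, lm_sub, lm_sub, lm_one]
    rfl
  refine ⟨_, D, lm s.ψ fun j => (w (s.N j) ((s.q j).l y) ((s.q j).t y) : s.R j) • -Jm (s.R j), hD,
    ?_, ?_⟩ <;> rw [e]
  · exact (lm_mul _ _).symm.trans ((s.ae.lm ((k.and s.gs.lv).mono fun j v => by
      rw [v.2.hN, v.1.1])).trans lm_zero)
  · refine (lm_mul (fun j => _ᵀ) _).symm.trans ((s.ae.lm ((k.and s.gs.lv).mono fun j v => ?_)).trans
      (lm_mul _ _))
    rw [Matrix.mul_smul, v.2.hN', Matrix.smul_mul]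
    exact congrArg _ v.1.2

end Vale.Agent.P014U.Pp
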