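import Vale.Agent.P014U.Pq.Ext
import Vale.Agent.P014T.Pp.Lv

/-! # P014U, block PATQ: one more prime, with an inverse; limits of packages -/

set_option linter.all false

open NumberField Matrix Submodule Set Sum Filter
open scoped Pointwise Classical

noncomputable section

namespace Vale.Agent.P014U.Pp.Ex

open Vale.Agent.P022 Vale.Agent.P022K Vale.Agent.P022K.G2
open Vale.Agent.P027M.S (Inert)
open Vale.Agent.P022E.GW (Ov Fb)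
open Vale.Agent.P014U.X4F.Pr (ac zero_ac mul_ac ac_zero one_ac ac_add)
open Vale.Agent.P004F.Pa (up ac_up sum_up ac_mk mk_zero nak)
open Vale.Agent.P004F.Pa.Xl (ev ev_vm ev_ker ex_mat)
open Vale.Agent.P004F.Pat (U Ae lm U_ch lm_mul lm_sub lm_one vm_mem)
open Kq (M2 F4 Gl Pk)
open Pq Vale.Agent.P014T.Pp.Lv

section level

variable [Pp] {R : Type} [CommRing R] {σ ι ι' β : Type} [Fintype σ] [Fintype ι] [Fintype ι']
  {γ : Gl R GQ σ} {τ c : GQ} {T T' : Finset ℕ} {D : β → Subgroup GQ} {q : Ps (σ ⊕ ι)}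
  {p : Pk R GQ σ ι} {m : β → Matrix (Fin 2) (Fin p.g) R}

/-- **one more prime**, with the parameters -/
theorem exl' {k : ℕ} (h2 : (pp : R) ^ k = 0) (e : Option ι ≃ ι') {q' : Ps (σ ⊕ ι')}
    {p' : Pk R GQ σ ι'} {m' : β → Matrix (Fin 2) (Fin p'.g) R} (h : Lu γ τ T c D q p m)
    (h' : Lu γ τ T' c D q' p' m') (o : q'.Ok γ τ)
    (hT : ∀ x, x ∈ T' ↔ x = q'.l (inr (e none)) ∨ x ∈ T) (nT : q'.l (inr (e none)) ∉ T)
    (hφ : ∀ x, q'.φ (x.map id (e ∘ some)) = q.φ x) (ht : ∀ x, q'.t (x.map id (e ∘ some)) = q.t x)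
    {g : GQ} (hg : ∀ i, p.u (g⁻¹ * q'.φ (inr (e none))) i ∈ p.Rl γ τ) :
    ∃ (E : p.Ext γ τ p' e g) (A' : Matrix (Fin p.g) (Fin p'.g) R),
      ∀ v, v ᵥ* A' ᵥ* E.A - v ∈ p.Rl γ τ := by
  generalize hL' : p'.Rl γ τ ⊔ span R (range (p'.S (e none))) = L'
  have le : p'.Rl γ τ ≤ L' := hL' ▸ le_sup_left
  have K := o.tm (inr (e none))
  have X := (h.bij _).mapsTo (up_rl le_rfl)
  have X' := (h'.bij _).mapsTo (up_rl le)
  have t0 : ac (p'.u (q'.t (inr (e none)))) (up L') = 0 := funext fun i => by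
    rw [ac_up, ← sub_sub_cancel (p'.S (e none) i) (p'.u _ i)]
    exact (mk_zero L').2 (sub_mem (hL' ▸ mem_sup_right (subset_span ⟨i, rfl⟩)) (le (h'.hS _ i)))
  obtain ⟨y', q1, q2⟩ := (h'.bij _).surjOn (show _ ∈ Sf _ T' γ.ρ c D from ⟨⟨X.1.1, X.1.2.1,
    fun g hg => X.1.2.2.1 g (In_anti (fun p m => (hT p).2 (.inr m)) hg), X.1.2.2.2⟩, X.2⟩)
  obtain ⟨y, q3, q4⟩ := (h.bij _).surjOn (show _ ∈ Sf _ T γ.ρ c D from ⟨⟨X'.1.1, X'.1.2.1,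
    fun g ⟨l, hp, Q, ho, hg⟩ => by
      by_cases s : l = q'.l (inr (e none))
      · exact unr_all h2 K (o.kt _) X'.1 t0 (s ▸ ho) hg
      · exact X'.1.2.2.1 g ⟨l, fun m => ((hT l).1 m).elim s hp, Q, ho, hg⟩, X'.1.2.2.2⟩, X'.2⟩)
  obtain ⟨A, hA⟩ := ex_mat (p.Rl γ τ) y'
  obtain ⟨a1, a3⟩ := Prod.ext_iff.1 q2
  obtain ⟨a4, a6⟩ := Prod.ext_iff.1 q4
  have f0 : ∀ v ∈ p'.Rl γ τ, v ᵥ* A ∈ p.Rl γ τ := fun v hv =>
    (mk_zero _).1 ((hA v).trans (ev_ker q1 hv))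
  have f4 : ∀ g i, p'.u g i ᵥ* A - p.u g i ∈ p.Rl γ τ := fun g i => by
    rw [← mk_zero, map_sub, hA, ← ev_up, sub_eq_zero]
    exact congrFun (congrFun a1 g) i
  have f6 : ∀ b i, m' b i ᵥ* A - m b i ∈ p.Rl γ τ := fun b i => by
    rw [← mk_zero, map_sub, hA, ← ev_up, sub_eq_zero]
    exact congrFun (congrFun a3 b) i
  have f7 : ∀ {v' v g i}, v' - p'.u g i ∈ p'.Rl γ τ → v - p.u g i ∈ p.Rl γ τ →
      v' ᵥ* A - v ∈ p.Rl γ τ := fun {v' v g i} a b => by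
    have := sub_mem (add_mem (f0 _ a) (f4 g i)) b
    rwa [sub_vecMul, sub_add_sub_cancel, sub_sub_sub_cancel_right] at this
  have k0 : ∀ {v}, v ∈ p.Rl γ τ → ev y v = 0 := fun hv => ev_ker q3 hv
  have k1 : ∀ {v v'}, v' ᵥ* A - v ∈ p.Rl γ τ → ev (ac A y) v' = ev y v := fun h => by
    have := k0 h
    rwa [map_sub, ev_vm, sub_eq_zero] at this
  have k2 := (h'.bij _).injOn (x₁ := ac A y) (funext fun i => (ev_vm A y _).symm.trans
    (k0 (f0 _ (subset_span ⟨i, rfl⟩)))) (up_rl le) (Prod.ext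
      ((funext fun g => funext fun i => k1 (f4 g i)).trans a4)
      ((funext fun b => funext fun i => k1 (f6 b i)).trans a6))
  have on : ∀ {v' v}, v' ᵥ* A - v ∈ p.Rl γ τ → v ∈ p.Rl γ τ ⊔ LinearMap.range (vecMulLinear A) :=
    fun {v' v} a => by
      rw [← sub_sub_cancel (v' ᵥ* A) v]
      exact sub_mem (mem_sup_right ⟨v', rfl⟩) (mem_sup_left a)
  have tp := h.top le_sup_left (fun g i => on (f4 g i)) fun b i => on (f6 b i)
  have : ∀ i : Fin p.g, ∃ w, w ᵥ* A - (1 : Matrix _ _ R) i ∈ p.Rl γ τ := fun i => by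
    obtain ⟨x, hx, _, ⟨w, rfl⟩, s⟩ := mem_sup.1 (tp.ge (mem_top (x := (1 : Matrix _ _ R) i)))
    refine ⟨w, ?_⟩
    rw [← s, vecMulLinear_apply, sub_add_cancel_right]
    exact neg_mem hx
  choose A' hA' using this
  refine ⟨⟨A, fun v => ⟨fun hv => ?_, fun hv => ?_⟩, f4, fun x i => ?_, fun x i => ?_,
    fun x i => ?_, fun i => f7 (h'.hF _ i) ?_⟩, .of A', fun v => ?_⟩
  · rw [hL', ← mk_zero, ← ev_up, ← k2, ← ev_vm, k0 hv]
  · refine (?_ : _ ≤ (p.Rl γ τ).comap (vecMulLinear A)) hv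
    refine sup_le f0 (span_le.2 (range_subset_iff.2 fun i => ?_))
    have := f7 (v := 0) (h'.hS (e none) i) (by
      rw [zero_sub]; exact neg_mem (h.unr ⟨_, nT, _, K.ov, K.gn.1⟩ i))
    rwa [sub_zero] at this
  · have a := h'.hl x i
    have b := h.hl x i
    rw [← hφ, ← ht] at b
    rcases i with i | i
    exacts [f7 a b, f7 a b]
  · exact f7 (h'.hF _ i) (hφ (inr x) ▸ h.hF x i :)
  · exact f7 (h'.hS _ i) (ht (inr x) ▸ h.hS x i :)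
  · have := neg_mem (h.tr (g := g) hg i)
    rw [mul_inv_cancel_left] at this
    exact (neg_sub (p.u _ i) (p.u g i)).subst (motive := (· ∈ _)) this
  · have := vm_mem (A := (Matrix.of A' * A - 1 : Matrix _ _ R)) hA' v
    rwa [vecMul_sub, vecMul_one, ← vecMul_vecMul] at this

end level

/-- raw data of fixed size -/
structure Rw (R σ ι : Type) (g r : ℕ) where
  Q : Matrix (Fin r) (Fin g) R
  l : σ → Matrix F4 (Fin g) R
  F : ι → Matrix (Fin 2) (Fin g) R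
  S : ι → Matrix (Fin 2) (Fin g) R
  u : GQ → Matrix (Fin 2) (Fin g) R

instance {R σ ι : Type} [CommRing R] {g r : ℕ} : Nonempty (Rw R σ ι g r) := ⟨⟨0, 0, 0, 0, 0⟩⟩

/-- the package -/
abbrev Rw.pk {R σ ι : Type} {g r : ℕ} (d : Rw R σ ι g r) : Pk R GQ σ ι := ⟨g, r, d.Q, d.l, d.F, d.S, d.u⟩

section limit

variable {R : ℕ → Type} [∀ j, CommRing (R j)] {O : Type} [CommRing O] (ψ : (∀ j, R j) →+* O)
  {σ ι ι' : Type} [Fintype σ] [Fintype ι] [Fintype ι'] {g r g' r' : ℕ}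

/-- the limit of packages -/
abbrev pl (d : ∀ j, Rw (R j) σ ι g r) : Pk O (ℕ → GQ) σ ι :=
  ⟨g, r, lm ψ fun j => (d j).Q, fun y => lm ψ fun j => (d j).l y, fun x => lm ψ fun j => (d j).F x,
    fun x => lm ψ fun j => (d j).S x, fun s => lm ψ fun j => (d j).u (s j)⟩

variable {ψ} {γ : ∀ j, Gl (R j) GQ σ} {Γ : Gl O (ℕ → GQ) σ} {τ : ℕ → GQ}
  (hN : ∀ y, Γ.N y = lm ψ fun j => (γ j).N y) (hτ : Γ.ρ τ = lm ψ fun j => (γ j).ρ (τ j))
include hN hτ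

theorem Rm_pl (d : ∀ j, Rw (R j) σ ι g r) :
    (pl ψ d).Rm Γ τ = lm ψ fun j => (d j).pk.Rm (γ j) (τ j) := by
  refine Matrix.ext fun a i => ?_
  rcases a with a | ⟨y | x, a⟩
  · rfl
  · show (Γ.N y * lm ψ fun j => (d j).l y) a i = _
    rw [hN, ← lm_mul]; rfl
  · show ((Γ.ρ τ - 1) * lm ψ fun j => (d j).S x : Matrix (Fin 2) (Fin g) O) a i = _
    rw [hτ, ← lm_one (ψ := ψ), ← lm_sub, ← lm_mul]; rfl

theorem Rl_pl (hψ : Ae ψ) {d : ∀ j, Rw (R j) σ ι g r} {v : ∀ j, Fin g → R j}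
    (h : ∀ᶠ j in U, v j ∈ (d j).pk.Rl (γ j) (τ j)) : lv ψ v ∈ (pl ψ d).Rl Γ τ := by
  rw [Pk.Rl, Rm_pl hN hτ]
  exact lv_mem hψ h

/-- **extensions pass to the limit** -/
theorem ext_pl (hψ : Ae ψ) {d : ∀ j, Rw (R j) σ ι g r} {d' : ∀ j, Rw (R j) σ ι' g' r'}
    (e : Option ι ≃ ι') (s : ℕ → GQ)
    (h : ∀ᶠ j in U, ∃ (E : (d j).pk.Ext (γ j) (τ j) (d' j).pk e (s j))
      (A' : Matrix (Fin g) (Fin g') (R j)), ∀ v, v ᵥ* A' ᵥ* E.A - v ∈ (d j).pk.Rl (γ j) (τ j)) :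
    Nonempty ((pl ψ d).Ext Γ τ (pl ψ d') e s) := by
  obtain ⟨A, h⟩ := U_ch (α := fun j => Matrix (Fin g') (Fin g) (R j))
    (P := fun j A => ∃ (E : (d j).pk.Ext (γ j) (τ j) (d' j).pk e (s j))
      (A' : Matrix (Fin g) (Fin g') (R j)), E.A = A ∧ ∀ v, v ᵥ* A' ᵥ* E.A - v ∈ (d j).pk.Rl (γ j) (τ j))
    (h.mono fun j ⟨E, A', a⟩ => ⟨_, E, A', rfl, a⟩)
  obtain ⟨A', h⟩ := U_ch (α := fun j => Matrix (Fin g) (Fin g') (R j))
    (P := fun j A' => ∃ (E : (d j).pk.Ext (γ j) (τ j) (d' j).pk e (s j)),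
      E.A = A j ∧ ∀ v, v ᵥ* A' ᵥ* E.A - v ∈ (d j).pk.Rl (γ j) (τ j))
    (h.mono fun j ⟨E, A', a⟩ => ⟨A', E, a⟩)
  have tr : ∀ {n : Type} {B' : ∀ j, Matrix n (Fin g') (R j)} {B : ∀ j, Matrix n (Fin g) (R j)} {i : n},
      (∀ j (E : (d j).pk.Ext (γ j) (τ j) (d' j).pk e (s j)),
        (B' j * E.A - B j) i ∈ (d j).pk.Rl (γ j) (τ j)) →
      (lm ψ B' * lm ψ A - lm ψ B) i ∈ (pl ψ d).Rl Γ τ := fun {n B' B i} a => by
    rw [← lm_mul, ← lm_sub]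
    exact Rl_pl hN hτ hψ (h.mono fun j ⟨E, b, _⟩ => by
      have := a j E
      rwa [b] at this)
  refine ⟨⟨lm ψ A, fun v => ?_, fun x i => tr fun j E => E.u _ i, fun x i => tr fun j E => E.l x i,
    fun x i => tr fun j E => E.F x i, fun x i => tr fun j E => E.S x i,
    fun i => tr fun j E => E.new i⟩⟩
  rw [Pk.Rl, Pk.Rl, ← sp_rows, Rm_pl hN hτ, Rm_pl hN hτ]
  refine (ker_lim hψ (A' := A')
    (M' := fun j => fromRows ((d' j).pk.Rm (γ j) (τ j)) ((d' j).S (e none)))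
    (h.mono fun j ⟨E, b, a⟩ => ?_) v).trans (by rw [P004F.Pat.lm_rows])
  rw [sp_rows, ← b]
  refine ⟨fun v m => (E.ker v).2 m, fun v m => (E.ker _).1 ?_, fun v => (E.ker _).1 ?_⟩
  · exact (sub_add_cancel (v ᵥ* A' j ᵥ* E.A) v).subst (motive := (· ∈ _)) (add_mem (a v) m)
  · rw [sub_vecMul]
    exact a _

end limit

end Vale.Agent.P014U.Pp.Ex
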