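import Vale.Agent.P014U.Pp.Rn0
import Vale.Agent.P014U.Pg.Bas
import Vale.Agent.P014U.X4F.Pat.Vec

/-! # P014U, block PATQ (odd prime), row PERT (helper7) -/

set_option linter.all false

open NumberField Matrix Filter PowerSeries

noncomputable section

namespace Vale.Agent.P014U.Pp

variable [Pp]

open Vale.Agent.P022 (Qb GQ)
open Vale.Agent.P027M.S (Inert)
open Vale.Agent.P022E.GW (Ov)
open Vale.Agent.P014U.X4F (La)
open Vale.Agent.P014U.X4F.Pat (U Im)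
open Vale.Agent.P014U.X4S.Aq (cz)
open Dr (Hm Ha Zn)
open Kq (Rq)
open Mu (Tq)

namespace Pt

theorem tq_Ha {S : Finset ℕ} {m c : ℕ} {e : GQ → ZMod (pp ^ m)} (t : Tq S m c e) {g : GQ} (h : g ∈ Ha) :
    e g = 0 := t.ker g fun y hy => Dr.Ha_le t.sq.ne_zero h y hy

open Polynomial in
theorem ex_M (A : GQ → Kq.M2 ℤ_[pp]) {P : Ideal (𝓞 Qb)} (o : Ov pp P) (k : ℕ) :
    ∃ g M, Inert P g ∧ (pp - 1) * pp ^ k ∣ M ∧ (A g - (cz g : ℤ_[pp]) ^ M • 1).det ≠ 0 := by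
  obtain ⟨g, h1, h2⟩ := Pg.ex_in o
  obtain ⟨_, ⟨m, rfl⟩, hm⟩ := (Set.infinite_range_of_injective (h2.comp (mul_right_injective₀
    (a := (pp - 1) * pp ^ k) (mul_ne_zero (Nat.sub_ne_zero_of_lt one_lt) (pow_ne_zero _ pp_ne))))).exists_notMem_finite
    (finite_setOf_isRoot (A g).charpoly_monic.ne_zero)
  refine ⟨g, (pp - 1) * pp ^ k * m, h1, ⟨m, rfl⟩, fun e => hm ?_⟩
  simp [det_fin_two, trace_fin_two, charpoly_fin_two] at e ⊢
  linear_combination e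

end Pt

open Pt in
/-- **row PERT** -/
theorem pert (h : RNG) : PERT := fun b t x k hk => by
  obtain ⟨u, u1, u2, u3, u4⟩ := b.big k
  have w2 : (pp : ℤ_[pp]) ∣ 2 - (b.r u).trace :=
    (dvd_pow_self _ two_ne_zero).trans ((dvd_pow_self _ (by omega)).trans u3)
  obtain ⟨n⟩ := h _ w2
  have f j := (ex_io (n.two_le (t.le j))).some
  obtain ⟨P, o⟩ := P004R.Mu.ex_pl pp_prime
  obtain ⟨g, M, g1, g2, g3⟩ := ex_M (fun g => b.ε g • b.r g) o k
  obtain ⟨d, -, hd⟩ := X4F.Pat.U_bdd (fun j => (t.c j).primeFactors.card) (.of_forall t.crd)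
  obtain ⟨en, hen⟩ := X4F.Pat.U_ch (α := fun _ => Fin d → ℕ) (P := fun j en =>
      Function.Injective en ∧ ∀ l, l ∈ (t.c j).primeFactors ↔ ∃ i, en i = l)
    (hd.mono fun j e => ⟨(t.c j).primeFactors.orderEmbOfFin e, RelEmbedding.injective _, fun l => by
      rw [← Finset.mem_coe, ← Finset.range_orderEmbOfFin _ e]; rfl⟩)
  have ex j : ∃ τ, b.r τ = b.r u ∧ b.ε τ = 1 ∧ t.e j τ = 0 ∧ t.e' j τ = 1 := by
    obtain ⟨Q, a⟩ := P004R.Mu.ex_pl (t.pq j).1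
    obtain ⟨s, s1, s2⟩ := (t.tq' j).ram _ Q a dvd_rfl
    have k := b.unr _ Q s a (t.pq j).2.1 s1
    exact ⟨u * s, by rw [map_mul, k.1, mul_one],
      by rw [map_mul, k.2, x.cd j u (Dr.Ha_le ((x.gr j).pos _ (x.ad j)) u1), mul_one],
      by rw [(t.tq j).add, tq_Ha (t.tq j) u1, (t.tq j).ine a (t.pq j).2.2 s1, add_zero],
      by rw [(t.tq' j).add, tq_Ha (t.tq' j) u1, s2, zero_add]⟩
  choose τ hτ using ex
  let Ψ (j) : GQ →* n.R j := ((n.i j).comp (kq _)).toMonoidHom.comp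
      (b.ε * ((Units.coeHom _).comp cz) ^ M) * Rg.ch (n.X_ord (by omega)) (t.tq j).zero (t.tq j).add *
    Rg.ch (n.om_ord w2 (by omega)) (t.tq' j).zero (t.tq' j).add
  exact ⟨⟨_, n, f, u, M, P, g, d, en, τ, Ψ, fun j =>
    { toFun := fun g => Ψ j g⁻¹, map_one' := by rw [inv_one, map_one]
      map_mul' := fun a b => by rw [_root_.mul_inv_rev, map_mul, mul_comm] }, hk, rfl,
    sub_ne_zero.2 u4.symm, u3, u2, g2, o, g1, g3, hen, hτ,
    fun j g => by simp only [ch, map_mul (n.i j), map_pow (n.i j)]; rfl,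
    fun j g => (map_mul (Ψ j) _ _).symm.trans (by rw [mul_inv_cancel, map_one])⟩⟩

end Vale.Agent.P014U.Pp
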