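import Vale.Agent.P004F.Va.Van
import Vale.Agent.P014U.Base

/-! # P014U, block PATQ: the local cohomology at `l ≠ p` is killed by `det (a s - 1) ^ 3` -/

set_option linter.all false

open NumberField Matrix

noncomputable section

namespace Vale.Agent.P014U.Pp.Vn

open Vale.Agent.P022 Vale.Agent.P004F
open Vale.Agent.P022D.W (dec inP_le_dec conj_inP)
open Vale.Agent.P022.H443 (inP)
open Vale.Agent.P022E.GW (Ov)
open Pr (ac ac_add ac_smul ac_zero)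
open En (Wd wd_comm)
open Ra (ac_mul ac_one ac_sm)
open Va (Co ac_s1 ac_sub add_ac det_kill wd_mul det_cj)

variable {R M : Type} [CommRing R] [AddCommGroup M] [Module R M] {l : ℕ} {P : Ideal (𝓞 Qb)}
  {a : GQ →* M2 R} {x y : GQ → Fin 2 → M} {g s w : GQ}

/-- the wild inertia group -/
def Wl (o : Ov l P) : Subgroup GQ where
  carrier := {w | w ∈ inP P ∧ Wd l w}
  mul_mem' a b := ⟨mul_mem a.1 b.1, wd_mul o a.1 b.1 a.2 b.2⟩
  one_mem' := ⟨one_mem _, fun U _ _ => ⟨0, by simp⟩⟩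
  inv_mem' a := ⟨inv_mem a.1, fun U n h => (a.2 U n h).imp fun k e => by
    rw [inv_pow]; exact inv_mem e⟩

theorem Wl.conj {o : Ov l P} (hw : w ∈ Wl o) (hg : g ∈ dec P) : g * w * g⁻¹ ∈ Wl o :=
  ⟨conj_inP hg hw.1, fun U n h => (hw.2 U n h).conj g⟩

theorem ac_sum {ι : Type} (t : Finset ι) (B : M2 R) (v : ι → Fin 2 → M) :
    ac B (∑ i ∈ t, v i) = ∑ i ∈ t, ac B (v i) :=
  map_sum (AddMonoidHom.mk' (ac B) (ac_add B)) v t

/-- cocycles are trivial on the wild inertia group -/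
theorem avg (o : Ov l P) (hl : IsUnit (l : R)) (z : Co P a x) :
    ∃ m, ∀ w ∈ Wl o, x w = ac (a w - 1) m := by
  obtain ⟨U, oU, hU⟩ := z.lc
  obtain ⟨V, v, le⟩ := P022K.G2.ex_lv' oU
  have := v.nrm
  have := Fact.mk o.1
  have : V.FiniteIndex := ⟨P004S.idx_ne v.opn⟩
  let N := V.subgroupOf (Wl o)
  have := Fintype.ofFinite (Wl o ⧸ N)
  have d : ∀ w : Wl o, (w : GQ) ∈ dec P := fun w => inP_le_dec w.2.1
  have e : ∀ w w' : Wl o, (w : Wl o ⧸ N) = w' → x w' = x w := fun w w' h => by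
    have := z.coc _ (d w) _ (d (w⁻¹ * w'))
    rwa [hU _ (le (Subgroup.mem_subgroupOf.1 (QuotientGroup.eq.1 h))) (w⁻¹ * w').2.1, ac_zero, add_zero, ← Subgroup.coe_mul,
      mul_inv_cancel_left] at this
  obtain ⟨k, hk⟩ := IsPGroup.iff_card.1 (show IsPGroup l (Wl o ⧸ N) from fun q => by
    obtain ⟨w, rfl⟩ := QuotientGroup.mk_surjective q
    exact (w.2.2 V v.nrm v.opn).imp fun n h => (QuotientGroup.eq_one_iff (w ^ l ^ n)).2 h)
  obtain ⟨u, hu⟩ := (hl.pow k).exists_left_inv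
  refine ⟨-u • ∑ q : Wl o ⧸ N, x q.out, fun w hw => ?_⟩
  have := Equiv.sum_comp (Equiv.mulLeft ((⟨w, hw⟩ : Wl o) : Wl o ⧸ N)) fun q => x q.out
  rw [Finset.sum_congr rfl fun q _ => (e (⟨w, hw⟩ * q.out) _ (by simp)).trans
    (z.coc w (d ⟨w, hw⟩) _ (d q.out)), Finset.sum_add_distrib, ← ac_sum, Finset.sum_const,
    Finset.card_univ, ← Nat.card_eq_fintype_card, hk, ← Nat.cast_smul_eq_nsmul R, Nat.cast_pow,
    ← eq_sub_iff_add_eq] at this
  rw [ac_smul, ac_s1, neg_smul, ← smul_neg, neg_sub, ← this, smul_smul, hu, one_smul]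

/-- the local data -/
structure Dt (l : ℕ) (P : Ideal (𝓞 Qb)) (a : GQ →* M2 R) : Prop where
  ov : Ov l P
  un : IsUnit (l : R)
  lc : ∃ U : Subgroup GQ, IsOpen (U : Set GQ) ∧ ∀ g ∈ U, g ∈ inP P → a g = 1

variable (D : Dt l P a)
include D

theorem Dt.cob (m : Fin 2 → M) : Co P a fun g => ac (a g - 1) m :=
  ⟨fun g b h c => by simp only [ac_s1, map_mul, ac_mul, ac_sub, sub_add_sub_cancel'],
    D.lc.imp fun _ u => ⟨u.1, fun g b c => by rw [ac_s1, u.2 g b c, ac_one, sub_self]⟩⟩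

theorem Dt.fix (z : Co P a x) (h : ∀ w ∈ Wl D.ov, x w = 0) (hg : g ∈ dec P) (hw : w ∈ Wl D.ov) :
    ac (a w) (x g) = x g := by
  have c := Wl.conj hw (inv_mem hg)
  have e := z.coc g hg _ (inP_le_dec c.1)
  rwa [h _ c, ac_zero, add_zero, show g * (g⁻¹ * w * g⁻¹⁻¹) = w * g by group,
    z.coc w (inP_le_dec hw.1) g hg, h w hw, zero_add] at e

theorem Dt.core0 (z : Co P a x) (h : ∀ w ∈ Wl D.ov, x w = 0) (hs : s ∈ inP P) :
    ∃ m, ∀ g ∈ dec P, (a s - 1).det ^ 3 • x g = ac (a g - 1) m := by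
  have ds := inP_le_dec hs
  have z1 := (z.smul (a s - 1).det).sub (D.cob (ac (a s - 1).adjugate (x s)))
  have e1 : (a s - 1).det • x s - ac (a s - 1) (ac (a s - 1).adjugate (x s)) = 0 := by
    rw [← ac_mul, mul_adjugate, ac_sm, ac_one, sub_self]
  have e2 : ∀ w ∈ Wl D.ov, (a s - 1).det • x w - ac (a w - 1) (ac (a s - 1).adjugate (x s)) = 0 :=
    fun w hw => by
    have k : (a s - 1).adjugate = ((a s).trace - 1) • 1 + (-1 : R) • a s := by
      ext i j; fin_cases i <;> fin_cases j <;> simp [adjugate_fin_two, trace_fin_two] <;> ring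
    rw [h w hw, smul_zero, zero_sub, neg_eq_zero, ac_s1, k, add_ac, ac_sm, ac_sm, ac_one, ac_add,
      ac_smul, ac_smul, D.fix z h ds hw, ← ac_mul, ← map_mul,
      show w * s = s * (s⁻¹ * w * s⁻¹⁻¹) by group, map_mul, ac_mul,
      D.fix z h ds (Wl.conj hw (inv_mem ds)), sub_self]
  refine ⟨((a s - 1).det * (a s - 1).det) • ac (a s - 1).adjugate (x s), fun g hg => ?_⟩
  generalize hy : (fun g => (a s - 1).det • x g - ac (a g - 1) (ac (a s - 1).adjugate (x s))) = y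
    at z1
  replace e1 : y s = 0 := hy ▸ e1
  replace e2 : ∀ w ∈ Wl D.ov, y w = 0 := hy ▸ e2
  have c := conj_inP hg hs
  have dc := inP_le_dec c
  have m := mul_mem (mul_mem hs c) (inv_mem (mul_mem c hs))
  have wd : _ ∈ Wl D.ov := ⟨m, wd_comm D.ov hs c⟩
  have e := z1.coc _ (inP_le_dec m) _ (mul_mem dc ds)
  rw [inv_mul_cancel_right, e2 _ wd, D.fix z1 e2 (mul_mem dc ds) wd, z1.coc s ds _ dc,
    z1.coc _ dc s ds, e1, ac_zero, zero_add, zero_add, add_zero, ← sub_eq_zero, ← ac_s1] at e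
  have e' := (z1.smul (a s - 1).det).coc _ dc g hg
  rw [inv_mul_cancel_right, (z1.smul _).coc g hg s ds, e1, smul_zero, ac_zero, det_kill e, add_zero,
    zero_add, eq_comm, ← sub_eq_zero, ← ac_s1] at e'
  have k := det_kill e'
  rw [← hy] at k
  simp only [det_cj, smul_sub, smul_smul, sub_eq_zero] at k
  rw [ac_smul, ← k]
  congr 1
  ring

/-- **the local classes are killed by the cube of `det (a s - 1)`, `s` in the inertia group** -/
theorem Dt.core (z : Co P a x) (hs : s ∈ inP P) :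
    ∃ m, ∀ g ∈ dec P, (a s - 1).det ^ 3 • x g = ac (a g - 1) m := by
  obtain ⟨n, hn⟩ := avg D.ov D.un z
  obtain ⟨m, hm⟩ := D.core0 (z.sub (D.cob n)) (fun w hw => sub_eq_zero.2 (hn w hw)) hs
  exact ⟨m + (a s - 1).det ^ 3 • n, fun g hg => by
    rw [ac_add, ac_smul, ← hm g hg, smul_sub, sub_add_cancel]⟩

omit D

/-- **global form**: any place `P` over `l`, `s` in the inertia group of some place over `l` -/
theorem van0 (a : GQ →* M2 R) {P₀ : Ideal (𝓞 Qb)} (o₀ : Ov l P₀)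
    (un : IsUnit (l : R)) (lc : ∃ W : Subgroup GQ, IsOpen (W : Set GQ) ∧ ∀ w ∈ W, a w = 1)
    (hs : P027M.S.Inert P₀ s) (o : Ov l P) (coc : ∀ g h, x (g * h) = x g + ac (a g) (x h))
    (lx : ∃ W : Subgroup GQ, IsOpen (W : Set GQ) ∧ ∀ w ∈ W, x w = 0) :
    ∃ m, ∀ g ∈ dec P, (a s - 1).det ^ 3 • x g = ac (a g - 1) m := by
  obtain ⟨t, t1, -⟩ := P004S.ex_conj o o₀
  have D : Dt l P a := ⟨o, un, lc.imp fun _ u => ⟨u.1, fun g b _ => u.2 g b⟩⟩
  have := D.core (x := x) ⟨fun g _ h _ => coc g h, lx.imp fun _ u => ⟨u.1, fun g b _ => u.2 g b⟩⟩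
    (s := t⁻¹ * s * t⁻¹⁻¹) (by rw [inv_inv]; exact t1 s hs)
  rwa [det_cj] at this

theorem det_sc {B : M2 R} {u : R} (h : B = (1 + u) • 1) : (B - 1).det = u ^ 2 := by
  rw [h, add_smul, one_smul, add_sub_cancel_left, det_smul, det_one, mul_one, Fintype.card_fin]

variable [Pp]

theorem un_of [IsLocalRing R] (π : R →+* ZMod pp) (r : R) (h : π r ≠ 0) : IsUnit r := by
  by_contra k
  have m : RingHom.ker π = IsLocalRing.maximalIdeal R := IsLocalRing.eq_maximalIdeal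
    (RingHom.ker_isMaximal_of_surjective π (ZMod.ringHom_surjective π))
  exact h (RingHom.mem_ker.1 (m ▸ (IsLocalRing.mem_maximalIdeal r).2 k))

theorem un_l [IsLocalRing R] (π : R →+* ZMod pp) (hl : l.Prime) (l2 : l ≠ pp) : IsUnit (l : R) :=
  un_of π _ (by
    rw [map_natCast, Ne, ZMod.natCast_eq_zero_iff, Nat.prime_dvd_prime_iff_eq pp_prime hl]
    exact l2.symm)

theorem van [IsLocalRing R] (π : R →+* ZMod pp) (a : GQ →* M2 R) {P₀ : Ideal (𝓞 Qb)} (o₀ : Ov l P₀)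
    (l2 : l ≠ pp) (lc : ∃ W : Subgroup GQ, IsOpen (W : Set GQ) ∧ ∀ w ∈ W, a w = 1)
    (hs : P027M.S.Inert P₀ s) (o : Ov l P) (coc : ∀ g h, x (g * h) = x g + ac (a g) (x h))
    (lx : ∃ W : Subgroup GQ, IsOpen (W : Set GQ) ∧ ∀ w ∈ W, x w = 0) :
    ∃ m, ∀ g ∈ dec P, (a s - 1).det ^ 3 • x g = ac (a g - 1) m :=
  van0 a o₀ (un_l π o.1 l2) lc hs o coc lx

/-- a multiple of the cube -/
theorem van' [IsLocalRing R] (π : R →+* ZMod pp) (a : GQ →* M2 R) {P₀ : Ideal (𝓞 Qb)} (o₀ : Ov l P₀)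
    (l2 : l ≠ pp) (lc : ∃ W : Subgroup GQ, IsOpen (W : Set GQ) ∧ ∀ w ∈ W, a w = 1)
    (hs : P027M.S.Inert P₀ s) {η : R} (hη : (a s - 1).det ^ 3 ∣ η) (o : Ov l P)
    (coc : ∀ g h, x (g * h) = x g + ac (a g) (x h))
    (lx : ∃ W : Subgroup GQ, IsOpen (W : Set GQ) ∧ ∀ w ∈ W, x w = 0) :
    ∃ m, ∀ g ∈ dec P, η • x g = ac (a g - 1) m := by
  obtain ⟨m, h⟩ := van π a o₀ l2 lc hs o coc lx
  obtain ⟨t, rfl⟩ := hη
  exact ⟨t • m, fun g hg => by rw [mul_comm, mul_smul, h g hg, ac_smul]⟩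

theorem det_map (f : ℤ_[pp] →+* R) {A : M2 ℤ_[pp]} {v : ℕ} (h : (A - 1).det ∣ (pp : ℤ_[pp]) ^ v) :
    (A.map f - 1).det ∣ (pp : R) ^ v := by
  have := map_dvd f h
  rwa [RingHom.map_det, map_sub, map_one, map_pow, map_natCast] at this

theorem ex_pow {d : ℤ_[pp]} (h : d ≠ 0) : ∃ v : ℕ, d ∣ (pp : ℤ_[pp]) ^ v :=
  (IsDiscreteValuationRing.associated_pow_irreducible h PadicInt.irreducible_p).imp fun _ k => k.dvd

end Vale.Agent.P014U.Pp.Vn
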