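import Vale.Agent.P014U.Pp.St
import Vale.Agent.P014U.Pp.Van0
import Vale.Agent.P014U.Pp.Rng

/-! # P014U, block PATQ, row VAN: the places outside `σ` -/

set_option linter.all false

open NumberField Matrix Filter PowerSeries
open scoped Classical

noncomputable section

namespace Vale.Agent.P014U.Pp

open Vale.Agent.P022 (Qb GQ)
open Vale.Agent.P027M.S (Inert)
open Vale.Agent.P022E.GW (Ov)
open Vale.Agent.P014U.X4F.Pat (U ul_const)
open Vale.Agent.P014U.X4S.Aq (cz cy_in cy_apply)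
open Dr (Zn aa)
open Kq (Un Rq)
open Mu (Tq)

variable [Pp]

namespace Vn

variable {l : ℕ} {P : Ideal (𝓞 Qb)} {g : GQ}

theorem ine {S : Finset ℕ} {n c : ℕ} {e : GQ → ZMod (pp ^ n)} (t : Tq S n c e) (o : Ov l P)
    (d : ¬ l ∣ c) (i : Inert P g) : e g = 0 := t.ine o d i

theorem cz_in (o : Ov l P) (l2 : l ≠ pp) (i : Inert P g) : (cz g : ℤ_[pp]) = 1 :=
  Subtype.ext ((cy_apply g).symm.trans (cy_in o l2 i))

theorem hom_eq {R : Type} [CommRing R] {N : ℕ} (f : Zn N →+* R) (φ : ℤ_[pp] →+* R) (x : ℤ_[pp]) :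
    f (PadicInt.toZModPow N x) = φ x := by
  obtain ⟨y, e⟩ := Ideal.mem_span_singleton.1 (PadicInt.appr_spec N x)
  have z : ((pp ^ N : ℕ) : R) = 0 := by rw [← map_natCast f, ZMod.natCast_self, map_zero]
  rw [sub_eq_iff_eq_add.1 e, ← Nat.cast_pow]
  simp only [map_add, map_mul, map_natCast, z, zero_mul]

variable {b : Bs} {t : Tw b} {k : ℕ} (p : Pe t k)

/-- the action of an inertia group at a prime `l ≠ pp` outside the tower -/
theorem act (j : ℕ) (o : Ov l P) (l2 : l ≠ pp) (d : ¬ l ∣ t.c j) (i : Inert P g) :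
    (p.gl j (p.Ψ j)).ρ g = p.n.i j (1 + QuadraticAlgebra.omega) ^ (t.e' j g).val •
      (b.ε g • b.r g).map ((p.n.i j).comp (kq p.w)) := by
  show p.Ψ j g • ((b.r g).map (PadicInt.toZModPow _)).map (p.f j) = _
  rw [p.hΨ, ch, cz_in o l2 i, ine (t.tq j) o d i, ZMod.val_zero, one_pow, mul_one, pow_zero,
    mul_one, map_mul, map_pow, mul_comm, mul_smul]
  congr 1
  ext a c
  simp only [Matrix.smul_apply, Matrix.map_apply, smul_eq_mul, map_mul, RingHom.comp_apply,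
    hom_eq (p.f j) ((p.n.i j).comp (kq p.w))]

end Vn

open Vn in
theorem van (h0 : GL0) : VAN := fun b t x k p => by
  have : ∀ l, ∃ v, l ∈ b.S → l ≠ pp → l ∉ b.σ →
      ∃ g, Inert (b.pl.P l) g ∧ (b.ε g • b.r g - 1).det ∣ (pp : ℤ_[pp]) ^ v := fun l => by
    by_cases h : l ∈ b.S ∧ l ≠ pp ∧ l ∉ b.σ
    · obtain ⟨g, a, d⟩ := b.add l h.1 h.2.1 h.2.2
      exact (ex_pow d).imp fun v k _ _ _ => ⟨g, a, k⟩
    · exact ⟨0, fun a b c => absurd ⟨a, b, c⟩ h⟩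
  choose v hv using this
  obtain ⟨V, hV⟩ : ∃ V, ∀ l ∈ b.S, v l ≤ V :=
    ⟨∑ l ∈ b.S, v l, fun l m => Finset.single_le_sum (fun _ _ => Nat.zero_le _) m⟩
  obtain ⟨e, he⟩ := Rg.un_rt (b := -p.w) (neg_ne_zero.2 p.w0)
  refine ⟨fun j => p.n.i j (((pp : Rq (-p.w) (-p.w)) ^ V * Rg.rt ^ 2) ^ 3), ⟨(V + e * 2) * 3, ?_⟩, ?_⟩
  · have := p.n.lim fun _ => ((pp : Rq (-p.w) (-p.w)) ^ V * Rg.rt ^ 2) ^ 3
    rw [ul_const, ul_const] at this
    refine (dvd_of_eq this).trans ?_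
    rw [pow_mul, pow_add, pow_mul]
    exact pow_dvd_pow_of_dvd (mul_dvd_mul_left _ (pow_dvd_pow_of_dvd he 2)) 3
  filter_upwards [(h0 b t x k p).lv, p.hen] with j lv en l hl l2 ne
  obtain ⟨W, oW, hW⟩ := lv.gd.lc
  have pr := lv.gd.pr l hl
  have o := b.pl.ov l pr
  have d : ¬ l ∣ t.c j := fun d =>
    ((en.2 l).1 (Nat.mem_primeFactors.2 ⟨pr, d, (t.tq j).sq.ne_zero⟩)).elim fun i e => ne (.inr i) e
  suffices ∃ g, Inert (b.pl.P l) g ∧
      ((p.gl j (p.Ψ j)).ρ g - 1).det ∣ p.n.i j ((pp : Rq (-p.w) (-p.w)) ^ V * Rg.rt ^ 2) by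
    obtain ⟨g, i, e⟩ := this
    refine ⟨_, o, show Vn (p.gl j (p.Ψ j)).ρ (p.n.i j _) _ from fun M _ _ T c y hy => ?_⟩
    exact van' (p.n.π j) _ o l2 ⟨W, oW, fun w m => hW w trivial m⟩ i
      (by rw [map_pow]; exact pow_dvd_pow_of_dvd e 3) o hy.1 hy.2.1
  rw [map_mul, map_pow, map_natCast]
  by_cases m : l ∈ b.S
  · obtain ⟨g, i, e⟩ := hv l m l2 fun s => ne (.inl ⟨l, s⟩) rfl
    refine ⟨g, i, ?_⟩
    rw [act p j o l2 d i, ine (t.tq' j) o (fun c => (t.pq j).2.1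
      ((Nat.prime_dvd_prime_iff_eq pr (t.pq j).1).1 c ▸ m)) i, ZMod.val_zero, pow_zero, one_smul]
    exact ((Vn.det_map _ e).trans (pow_dvd_pow _ (hV l m))).mul_right _
  · have dq : l ∣ t.q j := (pr.dvd_mul.1 (Nat.dvd_of_mem_primeFactors
      ((Finset.mem_union.1 hl).resolve_left m))).resolve_left d
    obtain ⟨g, i, e⟩ := (t.tq' j).ram l _ o dq
    obtain ⟨r1, e1⟩ := b.unr l _ g o m i
    have : Fact (1 < pp ^ (2 * j + 4)) := ⟨Nat.one_lt_pow (by omega) one_lt⟩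
    refine ⟨g, i, ?_⟩
    rw [det_sc (B := (p.gl j (p.Ψ j)).ρ g) (u := p.n.i j Rg.rt) (by
      rw [act p j o l2 d i, e, ZMod.val_one, pow_one, r1, e1, one_smul, map_add, map_one,
        Matrix.map_one _ (map_zero _) (map_one _)]
      rfl), map_pow]
    exact dvd_mul_left _ _

end Vale.Agent.P014U.Pp
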