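import Vale.Agent.P014T.Pp.Cm1
import Vale.Agent.P014U.Ba.Spq
import Vale.Agent.P014U.Ba.La
import Vale.Agent.P014U.Pp.Rn0
import Vale.Agent.P014U.Pp.Lok

/-! # P014U, block PATQ, row CMP: from the perturbed sequences to the tower -/

set_option linter.all false

open Matrix Filter PowerSeries Submodule Set
open scoped Classical

noncomputable section

namespace Vale.Agent.P014U.Pp.Cm

variable [Pp]

export Vale.Agent.P014T.Pp.Cm (Rp core rp_map mp_mv mp_s1)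

open Vale.Agent.P022 (GQ)
open Vale.Agent.P014U.X4F (La Rj cj mj)
open Vale.Agent.P004F.Pr (ac)
open Vale.Agent.P014U.X4F.Pat (U lm Sy Im Im_anti U_ge clo1 two_Im)
open Pq (Zq Ps Lu)
open Kq (M2 Gl Pk KQ Rq)
open Ba (st rd)

theorem lu_rp {R σ : Type} [CommRing R] [Fintype σ] {γ : Gl R GQ σ} {τ c : GQ} {T : Finset ℕ}
    {D : Empty → Subgroup GQ} {q : Ps (σ ⊕ Empty)} {p : Pk R GQ σ Empty}
    (h : Lu γ τ T c D q p fun _ => 0) : Rp (fun M _ _ => Zq M T γ.ρ c) (p.Rm γ τ) p.u := fun M _ _ =>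
  ⟨fun v a => ((h.bij M).mapsTo a).1,
    fun v a v' a' e => (h.bij M).injOn a a' (Prod.ext e (funext fun b => b.elim)), fun x a => by
      obtain ⟨v, b, e⟩ := (h.bij M).surjOn (show (x, fun b => b.elim) ∈ _ from ⟨a, fun b => b.elim⟩)
      exact ⟨v, b, congrArg Prod.fst e⟩⟩

theorem um_red {m n : Type} [Finite m] [Finite n] (A : ∀ j, Matrix m n (Rj (j + 1))) (k : ℕ) :
    ∀ᶠ j in U, ∀ p : Rj (j + 1) →+* Rj k, (∀ y, p (mj _ y) = mj _ y) →
      (A j).map p = (Sy.succ.um A).map (mj k) :=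
  (Sy.succ.um_spec A k).mono fun j e p hp => Matrix.ext fun a b => by
    obtain ⟨y, hy⟩ := Ideal.Quotient.mk_surjective (A j a b)
    exact (congrArg p hy.symm).trans ((hp y).trans (Ideal.Quotient.eq.2 (e a b y hy)))

theorem rd_Im {k : ℕ} (hk : 1 ≤ k) {y : La} (h : y ∈ Im k) : X ^ k ∣ rd y := by
  obtain ⟨a, b, rfl⟩ := Ideal.mem_span_pair.1 h
  rw [map_add, Ba.rd_zero.2 ((dvd_pow_self _ (by omega)).mul_left a), zero_add, map_mul, map_pow,
    PowerSeries.map_X]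
  exact dvd_mul_left _ _

theorem lvl (kq : KQ) (h1 : LMX) (h2 : LOK) (h3 : LEX) (h4 : LCB) {b : Bs} {t : Tw b} {x : t.Es}
    {r : ℕ} {Q : ∀ j, Matrix (Fin r) (Fin (r + 2)) (Rj (j + 1))}
    {u : ∀ j, GQ → Matrix (Fin 2) (Fin (r + 2)) (Rj (j + 1))}
    {V : ∀ j, Matrix (Fin (r + 2)) (Fin 2) (Rj (j + 1))} (hz : ∀ᶠ j in U, Pz x j (Q j) (u j) (V j))
    (C : Matrix (Fin 2) (Fin (r + 2)) La) {k : ℕ} (hk : 1 ≤ k)
    (hX : ¬ X ^ k ∣ rd (st finSumFinEquiv.symm (Sy.succ.um Q) C).det) {w : ℤ_[pp]} (hw : ((pp : ℤ_[pp]) ^ 2) ^ k ∣ w)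
    {s : Sq (Rq (-w) (-w))} (cp : Tw.Cp x k s) :
    mj k (st finSumFinEquiv.symm (Sy.succ.um Q) C).det ∣ mj k (2 * (t.E * (C * Sy.succ.um V).det)) := by
  have w2 : (pp : ℤ_[pp]) ^ k ∣ w := (pow_dvd_pow_of_dvd ⟨_, sq _⟩ k).trans hw
  obtain ⟨X, Y, m, κ, dg, cX, cY, un, -⟩ := h1 _ s Empty (fun j => some Empty.elim)
    (.of_forall fun j => ⟨_, rfl, fun i => i.elim, fun i => i.elim, fun i => i.elim, fun i => i.elim⟩)
  let L : s.Lm := ⟨Empty, _, X, Y, m, κ, dg, cX, cY, un⟩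
  obtain ⟨f, f1, f2⟩ := cp.red
  have a1 : ∀ᶠ j in U, ((X.pk j).Rm (s.γ j) (s.τ j)).map (f j) =
      ((X.lim s.ψ).Rm s.G s.τ).map (rz w2) := by
    rw [Lo.Rm_lim]
    exact (eventually_all.2 fun a : (Fin X.r ⊕ (s.σ ⊕ Empty) × Fin 2) × Fin X.g =>
      f1 fun j => (X.pk j).Rm (s.γ j) (s.τ j) a.1 a.2).mono fun j e => Matrix.ext fun a i => e (a, i)
  have a2 : ∀ᶠ j in U, ∀ i, f j (κ j i) = rz w2 (L.sg.κ i) ∧ f j (dg j i) = rz w2 (L.sg.dg i) :=
    eventually_all.2 fun i => (f1 fun j => κ j i).and (f1 fun j => dg j i)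
  obtain ⟨j, ⟨⟨⟨⟨⟨⟨z, n, -, v⟩, F, eF, hF⟩, a1⟩, a2⟩, q1⟩, q2⟩, kj⟩ :=
    (((((((hz.and un).and f2).and a1).and a2).and (um_red Q k)).and (um_red V k)).and (U_ge k)).exists
  rw [← eF] at a1 a2
  obtain ⟨p, hp⟩ : ∃ p : Rj (j + 1) →+* Rj k, ∀ y, p (mj _ y) = mj _ y :=
    ⟨Ideal.Quotient.factor (Im_anti (kj.trans j.le_succ)), fun _ => Ideal.Quotient.factor_mk ..⟩
  have pc y : p (cj _ y) = cj k y := hp _
  obtain ⟨b1, b2, m', b3⟩ := hF p hp
  obtain ⟨m'', b4⟩ := z.cl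
  obtain ⟨y, hy⟩ := b.cj
  have e0 : Finset.univ.image n = ∅ := by simp
  have eT : s.Tn j n = b.S ∪ t.T j := by rw [Sq.Tn, e0, cp.hT]; simp
  have R1 := rp_map p z.bij rfl (fun _ => rfl) rfl
  have R2 := rp_map F (lu_rp v.hX) eT b1 cp.hc
  have c1 : 1 + (t.a j b.c).map p = vecMulVec (cj k ∘ b.gp) (cj k ∘ y) := by
    rw [t.a_eq, t.hΨ, b.εc, (t.tq j).cj _ b.cc, ZMod.val_zero, pow_zero, map_one, one_mul, one_smul]
    refine Matrix.ext fun i i' => ?_
    have := congrArg (cj k) (congrFun (congrFun hy i) i')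
    rw [Matrix.add_apply, map_add, vecMulVec_apply, map_mul, ← Matrix.map_apply (f := cj k) (M := 1),
      Matrix.map_one _ (map_zero _) (map_one _), ← pc] at this
    exact this
  let e' : Fin X.g ≃ (Fin X.r ⊕ (s.σ ⊕ Empty) × Fin 2) ⊕ Fin 2 :=
    Fintype.equivOfCardEq (by rw [← cX]; simp; ring)
  obtain ⟨C', d1, d2, d3⟩ := core R1 R2 finSumFinEquiv.symm e' (c := b.c) (p := cj k ∘ b.gp)
    (w := cj k ∘ y) (m := p ∘ m'' - m') (a := fun g => (t.a j g).map p)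
    (V := (V j).map p) (d := F ∘ dg j) (y := F ∘ κ j) c1 (fun _ a => a.2.2.2)
    (by rw [← Matrix.map_mul, z.ker, Matrix.map_zero _ p.map_zero])
    (fun g => (mp_mv p (z.dg g)).trans ((mp_mv p rfl).symm.trans (by
      rw [mp_s1]; exact congrArg _ (funext fun _ => pc _))))
    ((mp_mv F v.dr).trans (funext fun _ => F.map_zero))
    ((mp_mv F v.kr).trans (funext fun _ => F.map_zero))
    (fun g => (mp_mv F (v.du g)).trans ((mp_mv F rfl).symm.trans (by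
      rw [mp_s1, b1]; exact congrArg _ (funext b2))))
    (fun g => by
      have i1 : p ∘ (u j g *ᵥ (V j)ᵀ 1) - p ∘ (2 • x.cl j g) = p ∘ (t.a j g *ᵥ m'') - p ∘ m'' :=
        funext fun i => (p.map_sub _ _).symm.trans
          ((congrArg (p <| · i) (b4 g trivial)).trans (p.map_sub _ _))
      have i2 := b3 g trivial
      beta_reduce at i2
      rw [← e0, ← v.ku, ← mp_mv F rfl] at i2
      rw [← mp_mv p rfl, ← mp_mv p rfl] at i1
      rw [mulVec_sub]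
      exact (sub_sub_sub_cancel_right _ _ _).symm.trans
        ((congrArg₂ (· - ·) i1 i2).trans (sub_sub_sub_comm ..))) (C.map (mj k))
  choose l hl using fun y : Rj k => Ideal.Quotient.mk_surjective y
  let x' : Fin 2 → Fin X.g → Rq (-w) (-w) := fun i a => algebraMap La _ (l (C' i a))
  have hx : (of x').map (rz w2) = C' := Matrix.ext fun i a => hl _
  rw [q1 p hp, ← Ba.st_map, ← RingHom.mapMatrix_apply, ← RingHom.map_det, a1, ← hx, ← Ba.st_map,
    ← RingHom.mapMatrix_apply, ← RingHom.map_det] at d1 d2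
  obtain ⟨α, β, e⟩ := kq (-w) (-w) k hk hw.neg_right w2.neg_right (s.sy h2 h3 h4 L inferInstance) x' _
    (Ba.pr_st e' ((X.lim s.ψ).Rm s.G s.τ) (of x')) (fun a => hX (by
      obtain ⟨c, hc⟩ := d2
      have := rd_Im hk (Ideal.Quotient.eq.1 (hc.trans (congrArg (_ * ·) (hl c).symm)))
      rwa [map_sub, map_mul, show rd _ = 0 from a, zero_mul, sub_zero] at this))
  have e1 : rz w2 (∏ y, s.P y) * rz w2 (L.sg.W x') =
      mj k α * rz w2 (st e' ((X.lim s.ψ).Rm s.G s.τ) (of x')).det := by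
    have := congrArg (mj k) e
    rw [map_add, map_mul, map_mul, Ideal.Quotient.eq_zero_iff_mem.2 (two_Im k), zero_mul,
      add_zero] at this
    exact (map_mul _ _ _).symm.trans this
  have e2 : rz w2 (L.sg.W x') = (C' * Ba.cl (F ∘ dg j) (F ∘ κ j)).det := by
    rw [show L.sg.W x' = (of x' * Ba.cl (κ := Fin X.g) L.sg.dg L.sg.κ).det from (Ba.det_cl ..).symm, RingHom.map_det,
      RingHom.mapMatrix_apply, Matrix.map_mul, hx]
    refine congrArg (fun M => (C' * M).det) (Matrix.ext fun a i => ?_)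
    fin_cases i
    exacts [(a2 a).2.symm, (a2 a).1.symm]
  rw [q2 p hp, ← Matrix.map_mul, ← RingHom.mapMatrix_apply, ← RingHom.map_det, ← e2] at d3
  rw [map_mul, map_mul, map_ofNat, mul_left_comm, d3, ← cp.hP, ← rz_apply w2, mul_left_comm, e1]
  exact (d1.mul_left _).mul_left _

/-- **the comparison** -/
theorem cmp : CMP := fun kq h1 h2 h3 h4 h5 b t x r Q u V hz C hd => by
  obtain ⟨n, hn⟩ : ∃ n, ¬ X ^ n ∣ rd (st finSumFinEquiv.symm (Sy.succ.um Q) C).det := by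
    by_contra a
    push Not at a
    exact hd (PowerSeries.ext fun n => X_pow_dvd_iff.1 (a (n + 1)) n n.lt_succ_self)
  refine Ba.cancel (t := 2) (e := 0) (by
    simpa only [pow_zero, map_ofNat] using (unit_two.map (PowerSeries.C (R := ℤ_[pp]))).dvd) hd
    (Ideal.mem_span_singleton.1 (clo1 _ fun k => ?_))
  obtain ⟨w, hw, s, cp⟩ := h5 b t x (k + n + t.m + 2) (by omega)
  obtain ⟨c, hc⟩ := lvl kq h1 h2 h3 h4 hz C (by omega)
    (fun a => hn ((pow_dvd_pow _ (by omega)).trans a)) hw cp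
  obtain ⟨c, rfl⟩ := Ideal.Quotient.mk_surjective c
  rw [← add_sub_cancel (_ * c) (2 * _)]
  exact add_mem (mem_sup_left (Ideal.mem_span_singleton.2 (dvd_mul_right _ c)))
    (mem_sup_right (Im_anti (by omega) (Ideal.Quotient.eq.1 hc)))

end Vale.Agent.P014U.Pp.Cm
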