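import Vale.Agent.P014U.Pp.Twx
import Vale.Agent.P014U.Pp.Glk
import Vale.Agent.P014U.Pp.Gs
import Vale.Agent.P014U.X4F.Pat.Vec

/-! # P014U, block PATQ (odd prime): presentations of the tower exist -/

set_option linter.all false

open NumberField Matrix Filter PowerSeries Set

noncomputable section

namespace Vale.Agent.P014U.Pp

variable [Pp]

open Vale.Agent.P022 (Qb GQ IsConj)
open Vale.Agent.P014U.X4F (La Rj cj mj)
open Vale.Agent.P004F.Pr (ac)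
open Vale.Agent.P014U.X4F.Pat (U rk rs U_bdd U_ch)
open Pq (Zq Gd)
open Dr (Hm Hm_open inert_Hm aa_eq_one)

theorem Bs.gd (b : Bs) : Gd ⊤ b.S fun g => (b.r g).map PadicInt.toZMod := by
  refine ⟨isOpen_univ, inferInstance, b.pr, ?_, fun g _ h _ => by rw [map_mul, Matrix.map_mul],
    ⟨(b.ρ 1).ker, b.lc 1, fun g _ m => ?_⟩, fun g _ ⟨l, m, P, o, i⟩ => ?_⟩
  · rw [map_one, Matrix.map_one _ (map_zero _) (map_one _)]
  · let f := ZMod.castHom (dvd_pow_self pp one_ne_zero) (ZMod pp)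
    exact (Matrix.ext fun a a' => G0.uq G0.nilp PadicInt.toZMod
      (f.comp (PadicInt.toZModPow 1)) (b.r g a a')).trans ((congrArg f.mapMatrix m).trans (map_one _))
  · rw [(b.unr l P g o m i).1, Matrix.map_one _ (map_zero _) (map_one _)]

namespace Tw

variable {b : Bs} {t : Tw b} {j : ℕ}

theorem gd (x : t.Es) (j : ℕ) : Gd ⊤ (b.S ∪ t.T j) (t.a j) := by
  refine ⟨isOpen_univ, inferInstance, fun l m => (Finset.mem_union.1 m).elim (b.pr l)
    Nat.prime_of_mem_primeFactors, map_one _, fun g _ h _ => map_mul _ g h,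
    ⟨(b.ρ (t.N j)).ker ⊓ Hm (x.M j), (b.lc _).inter (Hm_open ((x.gr j).pos _ (x.ad j))),
      fun g _ m => aa_eq_one m.1 (Gk.cd0 x j g m.2)⟩, fun g _ ⟨l, m, P, o, i⟩ => ?_⟩
  rw [Finset.mem_coe, Finset.mem_union, G0.mem_T o.1, not_or, not_or] at m
  rw [t.a_eq, t.hΨ, (b.unr l P g o m.1 i).1, (b.unr l P g o m.1 i).2, (t.tq j).ine o m.2.1 i]
  simp

theorem rk_cj (y : ℤ_[pp]) : rk j (cj _ y) = PadicInt.toZMod y := by
  show rs (C y) = _
  simp [rs]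

theorem rk_Ψ (t : Tw b) (j : ℕ) (g : GQ) : rk j (t.Ψ j g) = 1 := by
  rw [t.hΨ, b.one, map_one, one_mul, map_pow, show rk j (mj _ (1 + X)) = 1 by
    show rs (1 + X) = 1
    simp [rs], one_pow]

theorem res (t : Tw b) (j : ℕ) (g : GQ) : (t.a j g).map (rk j) = (b.r g).map PadicInt.toZMod := by
  rw [t.a_eq, Matrix.map_smul' _ _ _ (map_mul _), rk_Ψ, one_smul]
  exact Matrix.ext fun _ _ => rk_cj (j := j) _

theorem crd_T (t : Tw b) (j : ℕ) : (t.T j).card ≤ t.m + 1 := by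
  rw [T, Nat.primeFactors_mul (t.tq j).sq.ne_zero (t.pq j).1.ne_zero, (t.pq j).1.primeFactors]
  exact (Finset.card_union_le _ _).trans (Nat.succ_le_succ (t.crd j))

theorem a_c (t : Tw b) (j : ℕ) : t.a j b.c *ᵥ (cj _ ∘ b.gp) = cj _ ∘ b.gp := by
  rw [t.a_eq, t.hΨ, b.εc, (t.tq j).cj _ b.cc, ZMod.val_zero, pow_zero, map_one, one_mul, one_smul]
  exact funext fun i => ((cj _).map_mulVec _ b.gp i).symm.trans (by rw [b.fix]; rfl)

/-- minimal presentations at one level -/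
theorem pn0 (x : t.Es) (j : ℕ) : ∃ r Q u, t.Pn j (r := r) Q u ∧ Q.map (rk j) = 0 ∧
    Nat.card (Zq (ZMod pp) (b.S ∪ t.T j) (fun g => (b.r g).map PadicInt.toZMod) b.c) = pp ^ (r + 2) := by
  obtain ⟨r, Q, u, h1, h2, h3⟩ := Pq.presq (π := rk j) (by simp) (gd x j)
    (Finset.mem_union_left _ b.two) b.cc (.inr ⟨t.q j, Finset.mem_union_right _
      ((G0.mem_T (t.pq j).1).2 (.inr dvd_rfl)), fun e => (t.pq j).2.1 (e ▸ b.two), _,
      b.pl.ov _ (t.pq j).1, fun g m => (t.res j g).trans (t.spl j g m)⟩)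
  simp only [t.res] at h3
  exact ⟨r, Q, u, h2, h1, h3⟩

/-- the columns -/
theorem Pn.pz {r : ℕ} {Q u} (h : t.Pn j (r := r) Q u) (x : t.Es) : ∃ V, Pz x j Q u V := by
  have G := gd x j
  have m := (x.gr j).pos _ (x.ad j)
  obtain ⟨K, k1, k2, k3, k4⟩ := Dr.kol1 (ι := t.ι j) (x.gr j) (x.eu j) (x.ad j) (Gk.cd0 x j)
    (fun g => Rg.rk_nil (by rw [map_sub, rk_Ψ, map_one, sub_self])) b.cc
  have i : Dr.Inj (∅ : Finset (Dr.Kp (b.ρ (t.N j)) (x.S j) (t.ι j) (t.Ψ j) (x.M j))) := by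
    simp [Dr.Inj]
  have c := k1.cc0 k2 m (Gk.cd0 x j) (Gk.ug b _) i
  obtain ⟨v, v1, v2⟩ := (h _).surjOn (show (fun g => (t.a j g - 1) *ᵥ (cj _ ∘ b.gp)) ∈ _ from
    ⟨fun g g' => by
      show _ *ᵥ _ = _ *ᵥ _ + t.a j g *ᵥ _ *ᵥ _
      rw [mulVec_mulVec, ← add_mulVec, map_mul, mul_sub_one, sub_add_sub_cancel'],
    G.lc.imp fun W e => ⟨e.1, fun w a => by simp [e.2 w trivial a]⟩,
    fun g a => by simp [G.unr g trivial a], by simp only [sub_mulVec, a_c, one_mulVec, sub_self]⟩)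
  obtain ⟨w, w1, w2⟩ := (h _).surjOn (show K ∅ ∈ _ from ⟨fun g g' => c.coc g trivial g' trivial, c.lc,
    fun g a => c.unr g (P022K.G2.In_anti (by
      simpa using Finset.coe_subset.2 (x.pf j)) a), k3 _ i⟩)
  refine ⟨(of ![v, w])ᵀ, h, Matrix.ext fun a k => ?_, congrFun v2, x.cl j b.c, fun g _ => ?_⟩
  · fin_cases k
    exacts [congrFun v1 a, congrFun w1 a]
  · exact (congrArg (· - _) ((congrFun w2 g).trans (k4 g))).trans (add_sub_cancel_left _ _)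

/-- **presentations of bounded size** -/
theorem pnx (x : t.Es) : ∃ (r : ℕ) (Q : ∀ j, Matrix (Fin r) (Fin (r + 2)) (Rj (j + 1)))
    (u : ∀ j, GQ → Matrix (Fin 2) (Fin (r + 2)) (Rj (j + 1))),
    ∀ᶠ j in U, t.Pn j (Q j) (u j) ∧ (Q j).map (rk j) = 0 := by
  obtain ⟨C, hC⟩ := Pq.bndq b.gd b.two
  choose r Q u h1 h2 h3 using pn0 x
  obtain ⟨n, -, hn⟩ := U_bdd r (C := C + 2 * (t.m + 1)) (.of_forall fun j => by
    have := (h3 j).ge.trans (hC (t.T j) _ b.cc fun l => Nat.prime_of_mem_primeFactors)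
    rw [Nat.pow_le_pow_iff_right one_lt, Fintype.card_fin] at this
    have := t.crd_T j
    omega)
  obtain ⟨y, hy⟩ := U_ch (α := fun j => Matrix (Fin n) (Fin (n + 2)) (Rj (j + 1)) ×
      (GQ → Matrix (Fin 2) (Fin (n + 2)) (Rj (j + 1))))
    (P := fun j y => t.Pn j y.1 y.2 ∧ y.1.map (rk j) = 0) (hn.mono fun j e => by
      subst e; exact ⟨(Q j, u j), h1 j, h2 j⟩)
  exact ⟨n, _, _, hy⟩

end Tw

/-- **the input of the export** -/
theorem pzx {b : Bs} {t : Tw b} (x : t.Es) : ∃ (r : ℕ)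
    (Q : ∀ j, Matrix (Fin r) (Fin (r + 2)) (Rj (j + 1)))
    (u : ∀ j, GQ → Matrix (Fin 2) (Fin (r + 2)) (Rj (j + 1)))
    (V : ∀ j, Matrix (Fin (r + 2)) (Fin 2) (Rj (j + 1))), ∀ᶠ j in U, Pz x j (Q j) (u j) (V j) := by
  obtain ⟨r, Q, u, h⟩ := Tw.pnx x
  obtain ⟨V, hV⟩ := U_ch (h.mono fun j a => a.1.pz x)
  exact ⟨r, Q, u, V, hV⟩

end Vale.Agent.P014U.Pp
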